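import Mathlib
import Crest.Prelude.Def_CubicLines

/-!
# Row 262, G4, RIG (helper38): definitions and the statement

* `tri c u v w`  : the trilinear form with the coefficients `c`; `cub c` its cubic form;
* `ten G`        : the symmetric tensor of a cubic form;
* `plk u v`      : Pluecker coordinates; `pv a`, `qv a` the frame of the standard chart;
* `OnL c u v`    : the line through `u`, `v` lies on the cubic;
* `II c`         : the ideal of the variety of frames in `ℂ[x, y]`;
* `RSq c`        : the complete intersection facts which are used;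
* `Sec π k`      : sections of `O(k)` on the variety with the generic point `π`;
* `RigStmt`      : deformations of the Pluecker point are points of deformed Fano varieties.
-/

set_option autoImplicit false

open MvPolynomial
open scoped PowerSeries

noncomputable section

namespace Crest.Agent.X262.Rig38

section gen

variable {R A : Type} [CommRing R] [CommRing A] [Algebra R A]

/-- three-tensors -/
abbrev T3 (R : Type) : Type := Fin 6 → Fin 6 → Fin 6 → R

/-- the trilinear form of a tensor -/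
def tri (c : T3 R) (u v w : Fin 6 → A) : A :=
  ∑ i, ∑ j, ∑ k, algebraMap R A (c i j k) * u i * v j * w k

/-- symmetric tensors -/
structure Sy (c : T3 R) : Prop where
  l : ∀ i j k, c i j k = c j i k
  r : ∀ i j k, c i j k = c i k j

/-- the cubic form of a tensor -/
def cub (c : T3 R) : MvPolynomial (Fin 6) R := tri c X X X

/-- Pluecker coordinates -/
def plk (u v : Fin 6 → A) (i j : Fin 6) : A := u i * v j - u j * v i

/-- first vector of the frame of the standard chart -/
def pv (a : Fin 8 → A) : Fin 6 → A := ![1, 0, a 0, a 1, a 2, a 3]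

/-- second vector of the frame of the standard chart -/
def qv (a : Fin 8 → A) : Fin 6 → A := ![0, 1, a 4, a 5, a 6, a 7]

/-- the line through `u` and `v` lies on the cubic -/
structure OnL (c : T3 R) (u v : Fin 6 → A) : Prop where
  h0 : tri c u u u = 0
  h1 : tri c u u v = 0
  h2 : tri c u v v = 0
  h3 : tri c v v v = 0

end gen

/-- the symmetric tensor of a cubic form -/
def ten (G : MvPolynomial (Fin 6) ℂ) : T3 ℂ := fun i j k =>
  (1 / 6 : ℂ) * constantCoeff (pderiv i (pderiv j (pderiv k G)))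

/-- `ℂ[x, y]` -/
abbrev PP : Type := MvPolynomial (Fin 2 × Fin 6) ℂ

/-- the first vector -/
def xx (i : Fin 6) : PP := X (0, i)

/-- the second vector -/
def yy (i : Fin 6) : PP := X (1, i)

/-- the ideal of the variety of frames -/
def II (c : T3 ℂ) : Ideal PP :=
  Ideal.span {tri c xx xx xx, tri c xx xx yy, tri c xx yy yy, tri c yy yy yy}

/-- the complete intersection facts: all follow if `φ xxx, φ xxy, φ xyy, φ yyy, p₀₁, ℓ` is a regular
sequence for some `ℓ` in the ideal of the `p i j` -/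
structure RSq (c : T3 ℂ) : Prop where
  ne : tri c xx xx xx ≠ 0
  n1 : ∀ r, tri c xx xx yy * r ∈ Ideal.span {tri c xx xx xx} → r ∈ Ideal.span {tri c xx xx xx}
  n2 : ∀ r, tri c xx yy yy * r ∈ Ideal.span {tri c xx xx xx, tri c xx xx yy} →
    r ∈ Ideal.span {tri c xx xx xx, tri c xx xx yy}
  nz : ∀ r, plk xx yy 0 1 * r ∈ II c → r ∈ II c
  s2 : ∀ (r : PP) (N : ℕ), (∀ i j, plk xx yy i j ^ N * r ∈ II c ⊔ Ideal.span {plk xx yy 0 1}) →
    r ∈ II c ⊔ Ideal.span {plk xx yy 0 1}

/-- sections of `O(k)` -/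
def Sec {K : Type} [Field K] [Algebra ℂ K] (π : Fin 6 → Fin 6 → K) (k : ℕ) : Set K :=
  {s | ∀ i j, ∃ (N : ℕ) (P : MvPolynomial (Fin 6 × Fin 6) ℂ), P.IsHomogeneous (N + k) ∧
    s * π i j ^ N = aeval (fun m : Fin 6 × Fin 6 => π m.1 m.2) P}

/-- `a` is the generic point of the chart of the variety of lines -/
def GenPt {K : Type} [Field K] [Algebra ℂ K] (G : MvPolynomial (Fin 6) ℂ) (a : Fin 8 → K) : Prop :=
  ∀ r, aeval a r = 0 ↔ r ∈ Crest.AlgGeometry.fanoChartIdeal G

/-- formal sections -/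
structure FSec {K : Type} [Field K] [Algebra ℂ K] (π : Fin 6 → Fin 6 → K)
    (B : ℕ → Submodule ℂ⟦X⟧ K⟦X⟧) : Prop where
  mul : ∀ k l, ∀ x ∈ B k, ∀ y ∈ B l, x * y ∈ B (k + l)
  sat : ∀ k x, PowerSeries.X * x ∈ B k → x ∈ B k
  red : ∀ k, k = 2 ∨ k = 3 → ∀ x ∈ B k, PowerSeries.constantCoeff x ∈ Sec π k

/-- the output -/
structure Out {K : Type} [Field K] [Algebra ℂ K] (G : MvPolynomial (Fin 6) ℂ) (a : Fin 8 → K)
    (om : Fin 6 → Fin 6 → K⟦X⟧) where
  c : T3 ℂ⟦X⟧
  sy : Sy c
  c0 : ∀ i j k, PowerSeries.constantCoeff (c i j k) = ten G i j k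
  g : Fin 6 × Fin 6 → Fin 6 × Fin 6 → ℂ⟦X⟧
  g0 : ∀ m m', PowerSeries.constantCoeff (g m m') = if m = m' then 1 else 0
  a' : Fin 8 → K⟦X⟧
  a0 : ∀ i, PowerSeries.constantCoeff (a' i) = a i
  u : K⟦X⟧
  u0 : PowerSeries.constantCoeff u = 1
  pl : ∀ i j, ∑ m, g (i, j) m • om m.1 m.2 = u * plk (pv a') (qv a') i j
  on : OnL c (pv a') (qv a')

/-- **RIG** -/
def RigStmt : Prop :=
  ∀ (G : MvPolynomial (Fin 6) ℂ), G.IsHomogeneous 3 → RSq (ten G) →
    ∀ (K : Type) [Field K] [Algebra ℂ K] (a : Fin 8 → K), GenPt G a →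
    ∀ B : ℕ → Submodule ℂ⟦X⟧ K⟦X⟧, FSec (plk (pv a) (qv a)) B →
    ∀ om : Fin 6 → Fin 6 → K⟦X⟧, (∀ i j, om j i = -om i j) → (∀ i j, om i j ∈ B 1) →
      (∀ i j, PowerSeries.constantCoeff (om i j) = plk (pv a) (qv a) i j) → Nonempty (Out G a om)

/-- the input from the commutative algebra of the variety of frames -/
def RSqStmt : Prop :=
  ∀ G : MvPolynomial (Fin 6) ℂ, G.IsHomogeneous 3 →
    (∀ p : Fin 6 → ℂ, p ≠ 0 → eval p G = 0 → ∃ i, eval p (pderiv i G) ≠ 0) → RSq (ten G)

end Crest.Agent.X262.Rig38
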