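import Crest.Agent.X262.Rig38.Fst

/-!
# Row 262, G4, RIG (helper38): the `t`-adic iteration

* `exists_lim`;
* `exists_plk` : the Pluecker relations deform; `exists_cub` : the cubic deforms;
* `rigStmt : RigStmt`.
-/

set_option autoImplicit false
set_option linter.unusedSectionVars false

open PowerSeries

noncomputable section

namespace Crest.Agent.X262.Rig38

theorem exists_lim {ι R : Type} [CommRing R] (Good : ℕ → (ι → R⟦X⟧) → Prop) (s0 : ι → R⟦X⟧)
    (h0 : Good 0 s0)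
    (step : ∀ n s, Good n s → ∃ s', Good (n + 1) s' ∧ ∀ i, X ^ (n + 1) ∣ s' i - s i) :
    ∃ s : ι → R⟦X⟧, ∀ n, ∃ s', Good n s' ∧ ∀ i, X ^ (n + 1) ∣ s i - s' i := by
  choose nx h1 h2 using step
  let sq : ∀ n, {s // Good n s} := fun n =>
    Nat.rec (motive := fun n => {s // Good n s}) ⟨s0, h0⟩
      (fun n s => ⟨nx n s.1 s.2, h1 n s.1 s.2⟩) n
  have st : ∀ i k d, coeff k ((sq (k + d)).1 i) = coeff k ((sq k).1 i) := fun i k d => by
    induction d with
    | zero => rfl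
    | succ d ih =>
      have := X_pow_dvd_iff.1 (h2 (k + d) (sq (k + d)).1 (sq (k + d)).2 i) k (by omega)
      rw [map_sub, sub_eq_zero] at this
      exact this.trans ih
  refine ⟨fun i => mk fun k => coeff k ((sq k).1 i), fun n => ⟨(sq n).1, (sq n).2, fun i =>
    X_pow_dvd_iff.2 fun k hk => ?_⟩⟩
  obtain ⟨d, rfl⟩ : ∃ d, n = k + d := ⟨n - k, by omega⟩
  rw [map_sub, coeff_mk, st, sub_self]

theorem eq_zero_of_dvd {R : Type} [CommRing R] {f : R⟦X⟧} (h : ∀ n, X ^ (n + 1) ∣ f) : f = 0 := by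
  ext k
  exact X_pow_dvd_iff.1 (h k) k (by omega)

theorem cc_eq {R : Type} [CommRing R] {f g : R⟦X⟧} {n : ℕ} (h : X ^ (n + 1) ∣ f - g) :
    constantCoeff f = constantCoeff g := by
  have := X_pow_dvd_iff.1 h 0 (by omega)
  rwa [map_sub, sub_eq_zero, coeff_zero_eq_constantCoeff_apply,
    coeff_zero_eq_constantCoeff_apply] at this

theorem dvd_succ {R : Type} [CommRing R] {f g : R⟦X⟧} {n : ℕ} (e : f = X ^ (n + 1) * g)
    (h : constantCoeff g = 0) : X ^ (n + 1 + 1) ∣ f := by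
  obtain ⟨d, rfl⟩ := X_dvd_iff.2 h
  exact ⟨d, by rw [e]; ring⟩

variable {G : MvPolynomial (Fin 6) ℂ} {K : Type} [Field K] [Algebra ℂ K] {a : Fin 8 → K}
  {B : ℕ → Submodule ℂ⟦X⟧ K⟦X⟧}

theorem am_X : algebraMap ℂ⟦X⟧ K⟦X⟧ X = X := PowerSeries.map_X _

theorem am_C (z : ℂ) : algebraMap ℂ⟦X⟧ K⟦X⟧ (C z) = C (algebraMap ℂ K z) := PowerSeries.map_C _ _

theorem cc_am (f : ℂ⟦X⟧) :
    constantCoeff (algebraMap ℂ⟦X⟧ K⟦X⟧ f) = algebraMap ℂ K (constantCoeff f) := rfl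

theorem mk_am {n : ℕ} {f g : ℂ⟦X⟧} (h : X ^ n ∣ f - g) :
    Ideal.Quotient.mk (Ideal.span {(X : K⟦X⟧) ^ n}) (algebraMap ℂ⟦X⟧ K⟦X⟧ f) =
      Ideal.Quotient.mk (Ideal.span {(X : K⟦X⟧) ^ n}) (algebraMap ℂ⟦X⟧ K⟦X⟧ g) := by
  obtain ⟨d, e⟩ := h
  rw [Ideal.Quotient.eq, ← map_sub, e, map_mul, map_pow, am_X]
  exact Ideal.mem_span_singleton.2 ⟨_, rfl⟩

theorem FSec.sat' {π : Fin 6 → Fin 6 → K} (hB : FSec π B) (k n : ℕ) (x : K⟦X⟧)
    (h : X ^ n * x ∈ B k) : x ∈ B k := by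
  induction n with
  | zero => simpa using h
  | succ n ih => exact ih (hB.sat k _ (by rwa [← mul_assoc, ← pow_succ']))

/-- the action of a matrix -/
def act (g : (Fin 6 × Fin 6) × (Fin 6 × Fin 6) → ℂ⟦X⟧) (om : Fin 6 → Fin 6 → K⟦X⟧)
    (i j : Fin 6) : K⟦X⟧ := ∑ m, algebraMap ℂ⟦X⟧ K⟦X⟧ (g ((i, j), m)) * om m.1 m.2

theorem act_mem {om : Fin 6 → Fin 6 → K⟦X⟧} (h : ∀ i j, om i j ∈ B 1)
    (g : (Fin 6 × Fin 6) × (Fin 6 × Fin 6) → ℂ⟦X⟧) (i j : Fin 6) : act g om i j ∈ B 1 :=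
  Submodule.sum_mem _ fun m _ => by
    rw [← Algebra.smul_def]
    exact Submodule.smul_mem _ _ (h _ _)

theorem act_cc {om : Fin 6 → Fin 6 → K⟦X⟧} {g : (Fin 6 × Fin 6) × (Fin 6 × Fin 6) → ℂ⟦X⟧}
    (h : ∀ m m', constantCoeff (g (m, m')) = if m = m' then 1 else 0) (i j : Fin 6) :
    constantCoeff (act g om i j) = constantCoeff (om i j) := by
  simp [act, cc_am, h, apply_ite (algebraMap ℂ K)]

theorem exists_plk (hG : G.IsHomogeneous 3) (R : RSq (ten G)) (gp : GenPt G a)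
    (hB : FSec (plk (pv a) (qv a)) B) {om : Fin 6 → Fin 6 → K⟦X⟧} (hs : ∀ i j, om j i = -om i j)
    (h1 : ∀ i j, om i j ∈ B 1) (h0 : ∀ i j, constantCoeff (om i j) = plk (pv a) (qv a) i j) :
    ∃ g : (Fin 6 × Fin 6) × (Fin 6 × Fin 6) → ℂ⟦X⟧,
      (∀ m m', constantCoeff (g (m, m')) = if m = m' then 1 else 0) ∧
      (∀ i j, act g om j i = -act g om i j) ∧ ∀ i j k l, P4 (act g om) i j k l = 0 := by
  have e0 : act (fun m => if m.1 = m.2 then 1 else 0) om = om := by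
    funext i j
    simp [act, apply_ite (algebraMap ℂ⟦X⟧ K⟦X⟧)]
  obtain ⟨g, hg⟩ := exists_lim (fun n g =>
    (∀ m m', constantCoeff (g (m, m')) = if m = m' then 1 else 0) ∧
      (∀ i j, act g om j i = -act g om i j) ∧ ∀ i j k l, X ^ (n + 1) ∣ P4 (act g om) i j k l)
    (fun m => if m.1 = m.2 then 1 else 0)
    ⟨fun m m' => by simp [apply_ite (constantCoeff (R := ℂ))], by rw [e0]; exact hs,
      fun i j k l => by
        rw [e0, zero_add, pow_one, X_dvd_iff]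
        simp only [P4, map_add, map_sub, map_mul, h0, plk]
        ring⟩ (by
    rintro n g ⟨g0, gs, gP⟩
    choose θ hθ using gP
    have w0 : ∀ i j, constantCoeff (act g om i j) = plk (pv a) (qv a) i j := fun i j => by
      rw [act_cc g0, h0]
    obtain ⟨t1, t2, t3⟩ := wedge_zero (a := a) constantCoeff gs w0 (pow_ne_zero _ X_ne_zero) hθ
    have m2 : ∀ i j k l, act g om i j * act g om k l ∈ B 2 := fun i j k l =>
      hB.mul 1 1 _ (act_mem h1 g i j) _ (act_mem h1 g k l)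
    obtain ⟨M, Ms, hM⟩ := thA hG R gp (fun i j k l => hB.red 2 (Or.inl rfl) _
      (hB.sat' 2 (n + 1) _ (hθ i j k l ▸ add_mem (sub_mem (m2 ..) (m2 ..)) (m2 ..)))) t1 t2 t3
    have e1 : ∀ i j, act (fun m => g m - X ^ (n + 1) * ∑ m', C (M m.1 m') * g (m', m.2)) om i j =
        act g om i j - X ^ (n + 1) *
          ∑ m, C (algebraMap ℂ K (M (i, j) m)) * act g om m.1 m.2 := fun i j => by
      simp only [act, map_sub, map_mul, map_pow, map_sum, am_X, am_C, sub_mul,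
        Finset.sum_sub_distrib, Finset.mul_sum, Finset.sum_mul]
      rw [Finset.sum_comm]
      simp only [mul_assoc]
    refine ⟨fun m => g m - X ^ (n + 1) * ∑ m', C (M m.1 m') * g (m', m.2),
      ⟨fun m m' => by simp [g0], fun i j => ?_, fun i j k l => ?_⟩, fun m => ⟨_, by
        rw [sub_sub_cancel_left, neg_mul_eq_mul_neg]⟩⟩
    · rw [e1, e1, gs i j]
      simp only [Ms i j, map_neg, neg_mul, Finset.sum_neg_distrib]
      ring
    · refine dvd_succ (g := θ i j k l - P2 (act g om) (fun i j =>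
        ∑ m, C (algebraMap ℂ K (M (i, j) m)) * act g om m.1 m.2) i j k l + X ^ (n + 1) *
        P4 (fun i j => ∑ m, C (algebraMap ℂ K (M (i, j) m)) * act g om m.1 m.2) i j k l) ?_ ?_
      · have := hθ i j k l
        simp only [P4, P2, e1] at this ⊢
        linear_combination this
      · have := hM i j k l
        simp only [P2] at this
        simp only [P2, map_add, map_sub, map_mul, map_sum, map_pow, constantCoeff_X,
          constantCoeff_C, w0, this]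
        ring)
  have cg : ∀ n, ∃ w : Fin 6 → Fin 6 → K⟦X⟧, (∀ i j, w j i = -w i j) ∧
      (∀ i j k l, X ^ (n + 1) ∣ P4 w i j k l) ∧ ∀ i j,
      Ideal.Quotient.mk (Ideal.span {(X : K⟦X⟧) ^ (n + 1)}) (act g om i j) =
        Ideal.Quotient.mk (Ideal.span {(X : K⟦X⟧) ^ (n + 1)}) (w i j) := fun n => by
    obtain ⟨g', ⟨-, gs, gP⟩, hd⟩ := hg n
    exact ⟨act g' om, gs, gP, fun i j => by simp only [act, map_sum, map_mul, mk_am (hd _)]⟩
  refine ⟨g, fun m m' => ?_, fun i j => eq_neg_of_add_eq_zero_left (eq_zero_of_dvd fun n => ?_),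
    fun i j k l => eq_zero_of_dvd fun n => ?_⟩
  · obtain ⟨g', ⟨g0, -⟩, hd⟩ := hg 0
    rw [cc_eq (hd _), g0]
  · obtain ⟨w, ws, -, e⟩ := cg n
    rw [← Ideal.Quotient.eq_zero_iff_dvd, map_add, e, e, ws i j, map_neg, neg_add_cancel]
  · obtain ⟨w, -, wP, e⟩ := cg n
    have := wP i j k l
    rw [← Ideal.Quotient.eq_zero_iff_dvd] at this ⊢
    simpa only [P4, map_add, map_sub, map_mul, e] using this

theorem tri_sub {R A : Type} [CommRing R] [CommRing A] [Algebra R A] (c s : T3 R) (t : R)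
    (u v w : Fin 6 → A) : tri (fun i j k => c i j k - t * s i j k) u v w =
      tri c u v w - algebraMap R A t * tri s u v w := by
  simp only [tri, Finset.mul_sum, ← Finset.sum_sub_distrib, map_sub, map_mul]
  exact Finset.sum_congr rfl fun i _ => Finset.sum_congr rfl fun j _ =>
    Finset.sum_congr rfl fun k _ => by ring

theorem cc_tri {c : T3 ℂ⟦X⟧} {c0 : T3 ℂ} (h : ∀ i j k, constantCoeff (c i j k) = c0 i j k)
    (u v w : Fin 6 → K⟦X⟧) : constantCoeff (tri c u v w) = tri c0 (fun l => constantCoeff (u l))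
      (fun l => constantCoeff (v l)) (fun l => constantCoeff (w l)) :=
  tri_map constantCoeff c c0 (fun i j k => by rw [cc_am, h]) u v w

theorem exists_cub (hG : G.IsHomogeneous 3) (R : RSq (ten G)) (gp : GenPt G a)
    (hB : FSec (plk (pv a) (qv a)) B) {p q : Fin 6 → K⟦X⟧} {u : K⟦X⟧}
    (hp : ∀ l, constantCoeff (p l) = pv a l) (hq : ∀ l, constantCoeff (q l) = qv a l)
    (hu : constantCoeff u = 1) (h1 : ∀ i j, u * plk p q i j ∈ B 1) :
    ∃ c : T3 ℂ⟦X⟧, Sy c ∧ (∀ i j k, constantCoeff (c i j k) = ten G i j k) ∧ OnL c p q := by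
  have o := gp.onL hG
  have hp' : (fun l => constantCoeff (p l)) = pv a := funext hp
  have hq' : (fun l => constantCoeff (q l)) = qv a := funext hq
  obtain ⟨c, hc⟩ := exists_lim (fun n (c : Fin 6 × Fin 6 × Fin 6 → ℂ⟦X⟧) =>
    Sy (fun i j k => c (i, j, k)) ∧ (∀ i j k, constantCoeff (c (i, j, k)) = ten G i j k) ∧
      X ^ (n + 1) ∣ tri (fun i j k => c (i, j, k)) p p p ∧
      X ^ (n + 1) ∣ tri (fun i j k => c (i, j, k)) p p q ∧
      X ^ (n + 1) ∣ tri (fun i j k => c (i, j, k)) p q q ∧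
      X ^ (n + 1) ∣ tri (fun i j k => c (i, j, k)) q q q)
    (fun m => C (ten G m.1 m.2.1 m.2.2))
    ⟨⟨fun i j k => congrArg C ((ten_sy G).l i j k), fun i j k => congrArg C ((ten_sy G).r i j k)⟩,
      fun i j k => by simp, by
      simp only [zero_add, pow_one, X_dvd_iff,
        cc_tri (c0 := ten G) (fun _ _ _ => constantCoeff_C _), hp', hq']
      exact ⟨o.h0, o.h1, o.h2, o.h3⟩⟩ (by
    rintro n c ⟨cs, c0, ⟨b0, e0⟩, ⟨b1, e1⟩, ⟨b2, e2⟩, ⟨b3, e3⟩⟩
    have m3 : ∀ i j k, bt b0 b1 b2 b3 (-(u * q i)) (u * p i) (-(u * q j)) (u * p j) (-(u * q k))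
        (u * p k) ∈ B 3 := fun i j k => by
      refine hB.sat' 3 (n + 1) _ ?_
      have e := cs.tri_comb p q (-(u * q i)) (u * p i) (-(u * q j)) (u * p j) (-(u * q k)) (u * p k)
      rw [e0, e1, e2, e3] at e
      have e' : X ^ (n + 1) * bt b0 b1 b2 b3 (-(u * q i)) (u * p i) (-(u * q j)) (u * p j)
          (-(u * q k)) (u * p k) = ∑ i', ∑ j', ∑ k', c (i', j', k') •
            (u * plk p q i i' * (u * plk p q j j') * (u * plk p q k k')) := by
        refine Eq.trans (by simp only [bt]; ring) (e.symm.trans ?_)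
        simp only [tri, Algebra.smul_def, plk]
        exact Finset.sum_congr rfl fun i _ => Finset.sum_congr rfl fun j _ =>
          Finset.sum_congr rfl fun k _ => by ring
      rw [e']
      exact Submodule.sum_mem _ fun i' _ => Submodule.sum_mem _ fun j' _ =>
        Submodule.sum_mem _ fun k' _ => Submodule.smul_mem _ _
          (hB.mul 2 1 _ (hB.mul 1 1 _ (h1 ..) _ (h1 ..)) _ (h1 ..))
    obtain ⟨s, ss, s0, s1, s2, s3⟩ := thC hG R gp (b0 := constantCoeff b0)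
      (b1 := constantCoeff b1) (b2 := constantCoeff b2) (b3 := constantCoeff b3) fun i j k => by
        have := hB.red 3 (Or.inr rfl) _ (m3 i j k)
        simpa only [bt, map_add, map_mul, map_neg, hu, hp, hq, one_mul] using this
    have nx : ∀ (x y z : Fin 6 → K⟦X⟧) (b : K⟦X⟧),
        tri (fun i j k => c (i, j, k)) x y z = X ^ (n + 1) * b →
        tri s (fun l => constantCoeff (x l)) (fun l => constantCoeff (y l))
          (fun l => constantCoeff (z l)) = constantCoeff b → X ^ (n + 1 + 1) ∣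
        tri (fun i j k => c (i, j, k) - X ^ (n + 1) * C (s i j k)) x y z := fun x y z b e e' => by
      refine dvd_succ (g := b - tri (fun i j k => (C (s i j k) : ℂ⟦X⟧)) x y z) ?_ ?_
      · rw [tri_sub (fun i j k => c (i, j, k)), e, map_pow, am_X, mul_sub]
      · rw [map_sub, cc_tri (c0 := s) (fun _ _ _ => constantCoeff_C _), e', sub_self]
    exact ⟨fun m => c m - X ^ (n + 1) * C (s m.1 m.2.1 m.2.2),
      ⟨⟨fun i j k => by beta_reduce; rw [cs.l, ss.l], fun i j k => by beta_reduce; rw [cs.r, ss.r]⟩,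
        fun i j k => by simp [c0], nx _ _ _ _ e0 (by rw [hp', s0]),
        nx _ _ _ _ e1 (by rw [hp', hq', s1]), nx _ _ _ _ e2 (by rw [hp', hq', s2]),
        nx _ _ _ _ e3 (by rw [hq', s3])⟩,
      fun m => ⟨_, by rw [sub_sub_cancel_left, neg_mul_eq_mul_neg]⟩⟩)
  have lim : ∀ x y z : Fin 6 → K⟦X⟧, (∀ n (c' : Fin 6 × Fin 6 × Fin 6 → ℂ⟦X⟧),
      (X ^ (n + 1) ∣ tri (fun i j k => c' (i, j, k)) p p p ∧
      X ^ (n + 1) ∣ tri (fun i j k => c' (i, j, k)) p p q ∧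
      X ^ (n + 1) ∣ tri (fun i j k => c' (i, j, k)) p q q ∧
      X ^ (n + 1) ∣ tri (fun i j k => c' (i, j, k)) q q q) →
      X ^ (n + 1) ∣ tri (fun i j k => c' (i, j, k)) x y z) →
      tri (fun i j k => c (i, j, k)) x y z = 0 := fun x y z h => eq_zero_of_dvd fun n => by
    obtain ⟨c', ⟨-, -, h'⟩, hd⟩ := hc n
    have := h n c' h'
    rw [← Ideal.Quotient.eq_zero_iff_dvd] at this ⊢
    simpa only [tri, map_sum, map_mul, mk_am (hd _)] using this
  have sy : ∀ m m', (∀ c' : Fin 6 × Fin 6 × Fin 6 → ℂ⟦X⟧, Sy (fun i j k => c' (i, j, k)) →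
      c' m = c' m') → c m = c m' := fun m m' h => sub_eq_zero.1 (eq_zero_of_dvd fun n => by
    obtain ⟨c', ⟨cs, -⟩, hd⟩ := hc n
    have := dvd_sub (hd m) (hd m')
    rwa [h c' cs, sub_sub_sub_cancel_right] at this)
  refine ⟨fun i j k => c (i, j, k), ⟨fun i j k => sy _ _ fun c' h => h.l i j k,
    fun i j k => sy _ _ fun c' h => h.r i j k⟩, fun i j k => ?_,
    lim _ _ _ fun _ _ h => h.1, lim _ _ _ fun _ _ h => h.2.1, lim _ _ _ fun _ _ h => h.2.2.1,
    lim _ _ _ fun _ _ h => h.2.2.2⟩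
  obtain ⟨c', ⟨-, c0, -⟩, hd⟩ := hc 0
  rw [cc_eq (hd _), c0]

/-- **RIG** -/
theorem rigStmt : RigStmt := by
  intro G hG R K _ _ a gp B hB om hs h1 h0
  have : CharZero K := charZero_of_injective_algebraMap (algebraMap ℂ K).injective
  obtain ⟨g, g0, gs, gP⟩ := exists_plk hG R gp hB hs h1 h0
  obtain ⟨w, hw⟩ : ∃ w, w = act g om := ⟨_, rfl⟩
  have w1 : ∀ i j, w i j ∈ B 1 := hw ▸ act_mem h1 g
  have w0 : ∀ i j, constantCoeff (w i j) = plk (pv a) (qv a) i j := fun i j => by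
    rw [hw, act_cc g0, h0]
  rw [← hw] at gs gP
  have hu : constantCoeff (w 0 1) = 1 := by rw [w0, plk01]
  have hv : w 0 1 * (w 0 1)⁻¹ = 1 := PowerSeries.mul_inv_cancel _ (by rw [hu]; exact one_ne_zero)
  have hv0 : constantCoeff (w 0 1)⁻¹ = 1 := by rw [constantCoeff_inv, hu, inv_one]
  have wd : ∀ i, w i i = 0 := fun i => by
    have h2 : (C (1 / 2 : K) : K⟦X⟧) * 2 = 1 := by
      rw [show (2 : K⟦X⟧) = C 2 from (map_ofNat _ 2).symm, ← map_mul]
      norm_num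
    linear_combination C (1 / 2 : K) * gs i i - w i i * h2
  obtain ⟨p, hp⟩ : ∃ p : Fin 6 → K⟦X⟧, ∀ l, p l = -((w 0 1)⁻¹ * w 1 l) := ⟨_, fun _ => rfl⟩
  obtain ⟨q, hq⟩ : ∃ q : Fin 6 → K⟦X⟧, ∀ l, q l = (w 0 1)⁻¹ * w 0 l := ⟨_, fun _ => rfl⟩
  have p0 : ∀ l, constantCoeff (p l) = pv a l := fun l => by simp [hp, hv0, w0, plk1]
  have q0 : ∀ l, constantCoeff (q l) = qv a l := fun l => by simp [hq, hv0, w0, plk0]
  have e : ∀ i j, w i j = w 0 1 * plk p q i j := fun i j => by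
    have := gP 0 1 i j
    simp only [P4] at this
    simp only [plk, hp, hq]
    linear_combination (w 0 1)⁻¹ * this - (w i j + (w 0 1)⁻¹ * (w 0 i * w 1 j - w 0 j * w 1 i)) * hv
  obtain ⟨c, cs, c0, on⟩ := exists_cub hG R gp hB p0 q0 hu fun i j => e i j ▸ w1 i j
  have e1 := pv_of (u := p) (by rw [hp, gs 0 1]; linear_combination hv) (by rw [hp, wd]; ring) q
  have e2 := qv_of (v := q) (by rw [hq, wd]; ring) (by rw [hq]; linear_combination hv) p
  refine ⟨⟨c, cs, c0, fun m m' => g (m, m'), g0, ![p 2, p 3, p 4, p 5, q 2, q 3, q 4, q 5],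
    fun i => ?_, w 0 1, hu, fun i j => ?_, by rw [e1, e2]; exact on⟩⟩
  · fin_cases i <;> simp [p0, q0, pv, qv]
  · rw [e1, e2, ← e, hw]
    simp only [act, Algebra.smul_def]

end Crest.Agent.X262.Rig38
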