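import Crest.Agent.X262.Rig38.Defs

/-!
# Row 262, G4, RIG (helper38): trilinear forms

* `tri_comb`, `OnL.comb`, `tri_map`;
* `aeval_cub`, `ten_sy`, `cub_ten`, `ten_cub`;
* `onL_iff` : the equations of the chart of the variety of lines.
-/

set_option autoImplicit false

open MvPolynomial
open scoped PowerSeries

noncomputable section

namespace Crest.Agent.X262.Rig38

section gen

variable {R A : Type} [CommRing R] [CommRing A] [Algebra R A] {c : T3 R}

theorem tri_add1 (c : T3 R) (u u' v w : Fin 6 → A) :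
    tri c (fun l => u l + u' l) v w = tri c u v w + tri c u' v w := by
  simp only [tri, ← Finset.sum_add_distrib]
  exact Finset.sum_congr rfl fun i _ => Finset.sum_congr rfl fun j _ =>
    Finset.sum_congr rfl fun k _ => by ring

theorem tri_add2 (c : T3 R) (u v v' w : Fin 6 → A) :
    tri c u (fun l => v l + v' l) w = tri c u v w + tri c u v' w := by
  simp only [tri, ← Finset.sum_add_distrib]
  exact Finset.sum_congr rfl fun i _ => Finset.sum_congr rfl fun j _ =>
    Finset.sum_congr rfl fun k _ => by ring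

theorem tri_add3 (c : T3 R) (u v w w' : Fin 6 → A) :
    tri c u v (fun l => w l + w' l) = tri c u v w + tri c u v w' := by
  simp only [tri, ← Finset.sum_add_distrib]
  exact Finset.sum_congr rfl fun i _ => Finset.sum_congr rfl fun j _ =>
    Finset.sum_congr rfl fun k _ => by ring

theorem tri_mul1 (c : T3 R) (s : A) (u v w : Fin 6 → A) :
    tri c (fun l => s * u l) v w = s * tri c u v w := by
  simp only [tri, Finset.mul_sum]
  exact Finset.sum_congr rfl fun i _ => Finset.sum_congr rfl fun j _ =>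
    Finset.sum_congr rfl fun k _ => by ring

theorem tri_mul2 (c : T3 R) (s : A) (u v w : Fin 6 → A) :
    tri c u (fun l => s * v l) w = s * tri c u v w := by
  simp only [tri, Finset.mul_sum]
  exact Finset.sum_congr rfl fun i _ => Finset.sum_congr rfl fun j _ =>
    Finset.sum_congr rfl fun k _ => by ring

theorem tri_mul3 (c : T3 R) (s : A) (u v w : Fin 6 → A) :
    tri c u v (fun l => s * w l) = s * tri c u v w := by
  simp only [tri, Finset.mul_sum]
  exact Finset.sum_congr rfl fun i _ => Finset.sum_congr rfl fun j _ =>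
    Finset.sum_congr rfl fun k _ => by ring

theorem Sy.tri_l (h : Sy c) (u v w : Fin 6 → A) : tri c u v w = tri c v u w := by
  simp only [tri]
  rw [Finset.sum_comm]
  exact Finset.sum_congr rfl fun i _ => Finset.sum_congr rfl fun j _ =>
    Finset.sum_congr rfl fun k _ => by rw [h.l]; ring

theorem Sy.tri_r (h : Sy c) (u v w : Fin 6 → A) : tri c u v w = tri c u w v := by
  simp only [tri]
  refine Finset.sum_congr rfl fun i _ => ?_
  rw [Finset.sum_comm]
  exact Finset.sum_congr rfl fun j _ => Finset.sum_congr rfl fun k _ => by rw [h.r]; ring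

/-- the symmetric trilinear form on a plane -/
def bt (b0 b1 b2 b3 u0 u1 v0 v1 w0 w1 : A) : A :=
  b0 * (u0 * v0 * w0) + b1 * (u0 * v0 * w1 + u0 * v1 * w0 + u1 * v0 * w0) +
    b2 * (u0 * v1 * w1 + u1 * v0 * w1 + u1 * v1 * w0) + b3 * (u1 * v1 * w1)

theorem Sy.tri_comb (h : Sy c) (p q : Fin 6 → A) (u0 u1 v0 v1 w0 w1 : A) :
    tri c (fun l => u0 * p l + u1 * q l) (fun l => v0 * p l + v1 * q l)
      (fun l => w0 * p l + w1 * q l) =
    bt (tri c p p p) (tri c p p q) (tri c p q q) (tri c q q q) u0 u1 v0 v1 w0 w1 := by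
  simp only [tri_add1, tri_add2, tri_add3, tri_mul1, tri_mul2, tri_mul3, bt]
  rw [h.tri_r p q p, h.tri_l q p p, h.tri_r p q p, h.tri_l q p q, h.tri_r q q p, h.tri_l q p q]
  ring

theorem OnL.tri_eq (h : Sy c) {p q : Fin 6 → A} (o : OnL c p q) (u0 u1 v0 v1 w0 w1 : A) :
    tri c (fun l => u0 * p l + u1 * q l) (fun l => v0 * p l + v1 * q l)
      (fun l => w0 * p l + w1 * q l) = 0 := by
  rw [h.tri_comb, o.h0, o.h1, o.h2, o.h3]
  simp [bt]

theorem OnL.comb (h : Sy c) {p q : Fin 6 → A} (o : OnL c p q) (u0 u1 v0 v1 : A) :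
    OnL c (fun l => u0 * p l + u1 * q l) (fun l => v0 * p l + v1 * q l) :=
  ⟨o.tri_eq h .., o.tri_eq h .., o.tri_eq h .., o.tri_eq h ..⟩

theorem tri_map {R' A' : Type} [CommRing R'] [CommRing A'] [Algebra R' A'] (f : A →+* A')
    (c : T3 R) (c' : T3 R')
    (hc : ∀ i j k, f (algebraMap R A (c i j k)) = algebraMap R' A' (c' i j k)) (u v w : Fin 6 → A) :
    f (tri c u v w) = tri c' (fun l => f (u l)) (fun l => f (v l)) (fun l => f (w l)) := by
  simp only [tri, map_sum, map_mul, hc]

theorem tri_alg {A' : Type} [CommRing A'] [Algebra R A'] (f : A →ₐ[R] A') (c : T3 R)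
    (u v w : Fin 6 → A) :
    f (tri c u v w) = tri c (fun l => f (u l)) (fun l => f (v l)) (fun l => f (w l)) :=
  tri_map f.toRingHom c c (fun _ _ _ => f.commutes _) u v w

theorem aeval_cub (c : T3 R) (u : Fin 6 → A) : aeval u (cub c) = tri c u u u := by
  rw [cub, tri_alg]
  simp

theorem cub_hom (c : T3 R) : (cub c).IsHomogeneous 3 := by
  refine IsHomogeneous.sum _ _ _ fun i _ => IsHomogeneous.sum _ _ _ fun j _ =>
    IsHomogeneous.sum _ _ _ fun k _ => ?_
  exact (((isHomogeneous_C _ _).mul (isHomogeneous_X _ _)).mul (isHomogeneous_X _ _)).mul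
    (isHomogeneous_X _ _)

/-- derivations and trilinear forms -/
theorem tri_der {S : Type} [CommRing S] [Algebra S A] (D : Derivation S A A) (c : T3 R)
    (hc : ∀ i j k, D (algebraMap R A (c i j k)) = 0) (u v w : Fin 6 → A) :
    D (tri c u v w) = tri c (fun l => D (u l)) v w + tri c u (fun l => D (v l)) w +
      tri c u v (fun l => D (w l)) := by
  simp only [tri, map_sum, Derivation.leibniz, hc, smul_eq_mul, ← Finset.sum_add_distrib]
  exact Finset.sum_congr rfl fun i _ => Finset.sum_congr rfl fun j _ =>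
    Finset.sum_congr rfl fun k _ => by ring

theorem tri_zero1 (c : T3 R) (v w : Fin 6 → A) : tri c (fun _ => 0) v w = 0 := by simp [tri]

theorem tri_zero2 (c : T3 R) (v w : Fin 6 → A) : tri c v (fun _ => 0) w = 0 := by simp [tri]

theorem tri_zero3 (c : T3 R) (v w : Fin 6 → A) : tri c v w (fun _ => 0) = 0 := by simp [tri]

theorem plk_map {A' : Type} [CommRing A'] (f : A →+* A') (u v : Fin 6 → A) (i j : Fin 6) :
    f (plk u v i j) = plk (fun l => f (u l)) (fun l => f (v l)) i j := by
  simp [plk]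

theorem pv_map {A' : Type} [CommRing A'] (f : A →+* A') (a : Fin 8 → A) (l : Fin 6) :
    f (pv a l) = pv (fun i => f (a i)) l := by
  fin_cases l <;> simp [pv]

theorem qv_map {A' : Type} [CommRing A'] (f : A →+* A') (a : Fin 8 → A) (l : Fin 6) :
    f (qv a l) = qv (fun i => f (a i)) l := by
  fin_cases l <;> simp [qv]

@[simp] theorem pv_zero (a : Fin 8 → A) : pv a 0 = 1 := rfl
@[simp] theorem pv_one (a : Fin 8 → A) : pv a 1 = 0 := rfl
@[simp] theorem qv_zero (a : Fin 8 → A) : qv a 0 = 0 := rfl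
@[simp] theorem qv_one (a : Fin 8 → A) : qv a 1 = 1 := rfl

theorem plk01 (a : Fin 8 → A) : plk (pv a) (qv a) 0 1 = 1 := by simp [plk]

theorem plk0 (a : Fin 8 → A) (l : Fin 6) : plk (pv a) (qv a) 0 l = qv a l := by simp [plk]

theorem plk1 (a : Fin 8 → A) (l : Fin 6) : plk (pv a) (qv a) 1 l = -pv a l := by simp [plk]

end gen

theorem pderiv_comm {σ R : Type} [CommRing R] (i j : σ) (p : MvPolynomial σ R) :
    pderiv i (pderiv j p) = pderiv j (pderiv i p) := by
  classical
  induction p using MvPolynomial.induction_on with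
  | C a => simp
  | add p q hp hq => simp [hp, hq]
  | mul_X p k hp =>
    simp only [Derivation.leibniz, smul_eq_mul, map_add, hp, pderiv_X, Pi.single_apply]
    split_ifs <;> simp <;> ring

theorem ten_sy (G : MvPolynomial (Fin 6) ℂ) : Sy (ten G) :=
  ⟨fun i j k => by simp only [ten]; rw [pderiv_comm i j],
    fun i j k => by simp only [ten]; rw [pderiv_comm j k]⟩

theorem eq_C_of_hom {σ R : Type} [CommRing R] {p : MvPolynomial σ R} (h : p.IsHomogeneous 0) :
    p = C (constantCoeff p) := by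
  rw [← totalDegree_zero_iff_isHomogeneous, totalDegree_eq_zero_iff_eq_C] at h
  exact h

theorem cub_ten {G : MvPolynomial (Fin 6) ℂ} (h : G.IsHomogeneous 3) : cub (ten G) = G := by
  have h1 : ∀ k, (pderiv k G).IsHomogeneous 2 := fun k => h.pderiv
  have h2 : ∀ j k, (pderiv j (pderiv k G)).IsHomogeneous 1 := fun j k => (h1 k).pderiv
  have h3 : ∀ i j k, (pderiv i (pderiv j (pderiv k G))).IsHomogeneous 0 :=
    fun i j k => (h2 j k).pderiv
  have e : cub (ten G) = C (1 / 6 : ℂ) * ∑ k, X k * ∑ j, X j * ∑ i,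
      X i * pderiv i (pderiv j (pderiv k G)) := by
    simp only [cub, tri, ten, Finset.mul_sum, algebraMap_eq, map_mul]
    rw [Finset.sum_comm]
    refine Eq.trans (Finset.sum_congr rfl fun j _ => Finset.sum_comm) ?_
    rw [Finset.sum_comm]
    refine Finset.sum_congr rfl fun k _ => Finset.sum_congr rfl fun j _ =>
      Finset.sum_congr rfl fun i _ => ?_
    rw [← eq_C_of_hom (h3 i j k)]
    ring
  rw [e]
  simp only [(h2 _ _).sum_X_mul_pderiv, one_smul, (h1 _).sum_X_mul_pderiv, nsmul_eq_mul]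
  have e2 : ∑ k, X k * (((2 : ℕ) : MvPolynomial (Fin 6) ℂ) * pderiv k G) =
      2 * ∑ k, X k * pderiv k G := by
    rw [Finset.mul_sum]
    exact Finset.sum_congr rfl fun k _ => by push_cast; ring
  rw [e2, h.sum_X_mul_pderiv, nsmul_eq_mul]
  have e3 : (C (1 / 6 : ℂ) : MvPolynomial (Fin 6) ℂ) * 6 = 1 := by
    rw [show (6 : MvPolynomial (Fin 6) ℂ) = C 6 from rfl, ← map_mul]
    norm_num
  push_cast
  linear_combination G * e3

theorem aeval_ten {A : Type} [CommRing A] [Algebra ℂ A] {G : MvPolynomial (Fin 6) ℂ}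
    (h : G.IsHomogeneous 3) (u : Fin 6 → A) : aeval u G = tri (ten G) u u u := by
  rw [← aeval_cub, cub_ten h]

theorem tri_single1 {R A : Type} [CommRing R] [CommRing A] [Algebra R A] (c : T3 R) (i j k : Fin 6) :
    tri c (fun l => if l = i then (1 : A) else 0) (fun l => if l = j then 1 else 0)
      (fun l => if l = k then 1 else 0) = algebraMap R A (c i j k) := by
  simp [tri]

theorem ten_cub {c : T3 ℂ} (h : Sy c) : ten (cub c) = c := by
  funext i j k
  have hc : ∀ (m : Fin 6) i j k,
      pderiv m (algebraMap ℂ (MvPolynomial (Fin 6) ℂ) (c i j k)) = 0 := fun m i j k => by simp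
  have hX : ∀ m : Fin 6, (fun l => pderiv m (X l : MvPolynomial (Fin 6) ℂ)) =
      fun l => if l = m then 1 else 0 := fun m => by
    funext l
    simp [pderiv_X, Pi.single_apply]
  have h0 : ∀ m n : Fin 6, (fun l => pderiv m (if l = n then (1 : MvPolynomial (Fin 6) ℂ) else 0))
      = fun _ => 0 := fun m n => by
    funext l
    split_ifs <;> simp
  simp only [ten, cub, tri_der _ c (hc _), map_add, hX, h0, tri_zero1, tri_zero2, tri_zero3,
    tri_single1, algebraMap_eq, constantCoeff_C, map_zero]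
  rw [h.l k j i, h.r j k i, h.l j i k, h.l k i j, h.r i k j]
  ring

section chart

open Crest.AlgGeometry

theorem linePoint_eq (l : Fin 6) : linePoint l =
    X 0 * C (pv (X : Fin 8 → MvPolynomial (Fin 8) ℂ) l) + X 1 * C (qv X l) := by
  fin_cases l <;> simp [linePoint, pv, qv]

/-- the generic frame -/
abbrev pX : Fin 6 → MvPolynomial (Fin 8) ℂ := pv X

/-- the generic frame -/
abbrev qX : Fin 6 → MvPolynomial (Fin 8) ℂ := qv X

theorem lineSubst_eq {G : MvPolynomial (Fin 6) ℂ} (h : G.IsHomogeneous 3) :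
    lineSubst G = bt (A := MvPolynomial (Fin 2) (MvPolynomial (Fin 8) ℂ))
      (C (tri (ten G) pX pX pX)) (C (tri (ten G) pX pX qX))
      (C (tri (ten G) pX qX qX)) (C (tri (ten G) qX qX qX))
      (X 0) (X 1) (X 0) (X 1) (X 0) (X 1) := by
  have e : linePoint = fun l => X 0 * C (pv (X : Fin 8 → MvPolynomial (Fin 8) ℂ) l) +
      X 1 * C (qv X l) := funext linePoint_eq
  have hC : ∀ u v w : Fin 6 → MvPolynomial (Fin 8) ℂ,
      (C (tri (ten G) u v w) : MvPolynomial (Fin 2) (MvPolynomial (Fin 8) ℂ)) =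
      tri (ten G) (fun l => C (u l)) (fun l => C (v l)) (fun l => C (w l)) := fun u v w =>
    tri_map C _ _ (fun _ _ _ => rfl) u v w
  rw [lineSubst, aeval_ten h, e, (ten_sy G).tri_comb, hC, hC, hC, hC]

/-- the equations of the chart -/
theorem onL_iff {A : Type} [CommRing A] [Algebra ℂ A] {G : MvPolynomial (Fin 6) ℂ}
    (h : G.IsHomogeneous 3) (a : Fin 8 → A) :
    OnL (ten G) (pv a) (qv a) ↔ ∀ r ∈ fanoChartIdeal G, aeval a r = 0 := by
  have hp : (fun l => aeval a (pv (X : Fin 8 → MvPolynomial (Fin 8) ℂ) l)) = pv a := by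
    funext l
    fin_cases l <;> simp [pv]
  have hq : (fun l => aeval a (qv (X : Fin 8 → MvPolynomial (Fin 8) ℂ) l)) = qv a := by
    funext l
    fin_cases l <;> simp [qv]
  have key : map (aeval a : MvPolynomial (Fin 8) ℂ →ₐ[ℂ] A).toRingHom (lineSubst G) =
      bt (C (tri (ten G) (pv a) (pv a) (pv a))) (C (tri (ten G) (pv a) (pv a) (qv a)))
      (C (tri (ten G) (pv a) (qv a) (qv a))) (C (tri (ten G) (qv a) (qv a) (qv a)))
      (X 0) (X 1) (X 0) (X 1) (X 0) (X 1) := by
    rw [lineSubst_eq h]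
    simp only [bt, map_add, map_mul, map_C, map_X, AlgHom.toRingHom_eq_coe, RingHom.coe_coe,
      tri_alg, hp, hq]
  constructor
  · intro o r hr
    rw [o.h0, o.h1, o.h2, o.h3] at key
    refine (Ideal.span_le (I := RingHom.ker (aeval a : MvPolynomial (Fin 8) ℂ →ₐ[ℂ] A))).2 ?_ hr
    rintro _ ⟨m, rfl⟩
    have := congrArg (coeff m) key
    rw [coeff_map] at this
    simpa [bt] using this
  · intro hr
    have h0 : map (aeval a : MvPolynomial (Fin 8) ℂ →ₐ[ℂ] A).toRingHom (lineSubst G) = 0 := by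
      ext m
      rw [coeff_map]
      exact hr _ (Ideal.subset_span ⟨m, rfl⟩)
    rw [key] at h0
    have e : ∀ s t : A, bt (tri (ten G) (pv a) (pv a) (pv a)) (tri (ten G) (pv a) (pv a) (qv a))
        (tri (ten G) (pv a) (qv a) (qv a)) (tri (ten G) (qv a) (qv a) (qv a)) s t s t s t = 0 := by
      intro s t
      have := congrArg (eval ![s, t]) h0
      simpa [bt] using this
    have e1 := e 1 0
    have e2 := e 0 1
    have e3 := e 1 1
    have e4 := e 1 (-1)
    simp only [bt] at e1 e2 e3 e4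
    have h6 : algebraMap ℂ A (1 / 6) * 6 = 1 := by
      rw [show (6 : A) = algebraMap ℂ A 6 from (map_ofNat _ 6).symm, ← map_mul]
      norm_num
    refine ⟨by linear_combination e1, ?_, ?_, by linear_combination e2⟩
    · linear_combination algebraMap ℂ A (1 / 6) * (e3 - e4 - 2 * e2) -
        tri (ten G) (pv a) (pv a) (qv a) * h6
    · linear_combination algebraMap ℂ A (1 / 6) * (e3 + e4 - 2 * e1) -
        tri (ten G) (pv a) (qv a) (qv a) * h6

end chart

end Crest.Agent.X262.Rig38
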