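import Crest.Agent.X262.Rig38.Rho

/-!
# Row 262, G4, RIG (helper38): the variety of lines is projectively normal

* `exists_inv` : projection to the invariants; `capelli`, `fft` : the first fundamental theorem;
* `sec_form`   : sections of `O(k)` are forms of degree `k` in the Pluecker coordinates.
-/

set_option autoImplicit false
set_option linter.unusedSectionVars false

open MvPolynomial

noncomputable section

namespace Crest.Agent.X262.Rig38

theorem rho_f {A : Type} [CommRing A] [Algebra ℂ A] (a : Fin 8 → A) (p : PP) :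
    rho a (fD p) = dd (Fin 2) A 1 0 (rho a p) := by
  induction p using MvPolynomial.induction_on with
  | C r =>
    rw [derivation_C, map_zero, algHom_C]
    exact (derivation_C _ _).symm
  | add p q hp hq => simp only [map_add, hp, hq]
  | mul_X p m hp =>
    obtain ⟨k, j⟩ := m
    simp only [Derivation.leibniz, smul_eq_mul, map_add, map_mul, hp, dd_X, rho_X, derivation_C]
    fin_cases k <;> simp [rho_X]
    ring

theorem BH.e_iter {p : PP} {a b : ℤ} (h : BH p a b) (n : ℕ) : BH (eD^[n] p) (a + n) (b - n) := by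
  induction n with
  | zero => simpa using h
  | succ n ih =>
    rw [Function.iterate_succ_apply']
    exact ih.e.cast (by push_cast; ring) (by push_cast; ring)

theorem eD_int (z : ℤ) (p : PP) : eD ((z : PP) * p) = (z : PP) * eD p := by
  rw [← zsmul_eq_mul, ← zsmul_eq_mul, map_zsmul]

theorem BH.e_iter_f {p : PP} {a b : ℤ} (h : BH p a b) (n : ℕ) : eD^[n + 1] (fD p) =
    fD (eD^[n + 1] p) + (((n + 1) * (a - b + n) : ℤ) : PP) * eD^[n] p := by
  induction n with
  | zero => simpa using h.ef
  | succ n ih =>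
    rw [Function.iterate_succ_apply', ih, map_add, (h.e_iter (n + 1)).ef, eD_int,
      ← Function.iterate_succ_apply' eD, ← Function.iterate_succ_apply' eD]
    push_cast
    ring

theorem eD_C (z : ℂ) (p : PP) : eD (C z * p) = C z * eD p := by
  simp [Derivation.leibniz]

theorem e_iter_sub (n : ℕ) (z : ℂ) (p q : PP) :
    eD^[n] (p - C z * q) = eD^[n] p - C z * eD^[n] q := by
  induction n with
  | zero => rfl
  | succ n ih =>
    simp only [Function.iterate_succ_apply', ih, map_sub, eD_C]

theorem exists_inv {A : Type} [CommRing A] [Algebra ℂ A] (a : Fin 8 → A) {k : ℤ} (n : ℕ) :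
    ∀ v : PP, BH v k k → eD^[n + 1] v = 0 → rho a (eD v) = 0 →
      ∃ v', BH v' k k ∧ eD v' = 0 ∧ rho a v' = rho a v := by
  induction n with
  | zero => exact fun v h e _ => ⟨v, h, e, rfl⟩
  | succ n ih =>
    intro v h e e'
    have h1 : rho a (fD (eD v)) = 0 := by rw [rho_f, e', map_zero]
    obtain ⟨v', h2, h3, h4⟩ := ih (v - C (1 / ((n + 1) * (n + 2)) : ℂ) * fD (eD v))
      (h.sub ((h.e.f.C_mul _).cast (by ring) (by ring))) (by
        rw [e_iter_sub, h.e.e_iter_f, ← Function.iterate_succ_apply eD,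
          ← Function.iterate_succ_apply eD, e, map_zero, zero_add, ← mul_assoc]
        have : (C (1 / ((n + 1) * (n + 2)) : ℂ) : PP) *
            (((n + 1) * (k + 1 - (k - 1) + n) : ℤ) : PP) = 1 := by
          rw [← map_intCast (C : ℂ →+* PP), ← map_mul, ← map_one C]
          congr 1
          have h1 : (n + 1 : ℂ) ≠ 0 := by exact_mod_cast Nat.succ_ne_zero n
          have h2 : (n + 2 : ℂ) ≠ 0 := by exact_mod_cast Nat.succ_ne_zero (n + 1)
          push_cast
          field_simp
          ring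
        rw [this, one_mul, sub_self]) (by
        rw [map_sub, eD_C, map_sub, map_mul, e', rho_e, h1, map_zero,
          mul_zero, sub_zero])
    exact ⟨v', h2, h3, by rw [h4, map_sub, map_mul, h1, mul_zero, sub_zero]⟩

/-- the Cayley operators -/
def cay (i j : Fin 6) (r : PP) : PP :=
  pderiv (0, i) (pderiv (1, j) r) - pderiv (0, j) (pderiv (1, i) r)

theorem dy_e (j : Fin 6) (r : PP) : pderiv (1, j) (eD r) = eD (pderiv (1, j) r) := by
  simp only [dd_apply, map_sum, Derivation.leibniz, smul_eq_mul]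
  refine Finset.sum_congr rfl fun i _ => ?_
  rw [pderiv_comm]
  simp [pderiv_X]

theorem dx_e (i : Fin 6) (r : PP) :
    pderiv (0, i) (eD r) = eD (pderiv (0, i) r) + pderiv (1, i) r := by
  simp only [dd_apply, map_sum, Derivation.leibniz, smul_eq_mul, Finset.sum_add_distrib]
  refine congrArg₂ (· + ·) (Finset.sum_congr rfl fun i _ => by rw [pderiv_comm]) ?_
  simp [pderiv_X, Pi.single_apply]

theorem e_cay (i j : Fin 6) (r : PP) : eD (cay i j r) = cay i j (eD r) := by
  simp only [cay, map_sub, dy_e, dx_e]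
  rw [pderiv_comm ((1, i) : Fin 2 × Fin 6) (1, j)]
  ring

theorem capelli {r : PP} {a b : ℤ} (h : BH r a b) (he : eD r = 0) :
    ∑ i, ∑ j, plk xx yy i j * cay i j r = ((2 * (a + 1) * b : ℤ) : PP) * r := by
  have e1 : ∑ i, ∑ j, xx i * yy j * pderiv (0, i) (pderiv (1, j) r) = (a : PP) * (b * r) := by
    rw [Finset.sum_comm, ← h.ey, Finset.mul_sum]
    refine Finset.sum_congr rfl fun j _ => ?_
    rw [mul_left_comm, ← (h.dy j).ex, Finset.mul_sum]
    exact Finset.sum_congr rfl fun i _ => by rw [xx, yy]; ring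
  have e2 : ∑ i, ∑ j, xx i * yy j * pderiv (0, j) (pderiv (1, i) r) = -((b : PP) * r) := by
    rw [Finset.sum_comm, ← h.ey, ← Finset.sum_neg_distrib]
    refine Finset.sum_congr rfl fun j _ => ?_
    have := dx_e j r
    rw [he, map_zero, dd_apply] at this
    rw [← neg_eq_of_add_eq_zero_right this.symm, mul_neg, neg_neg, Finset.mul_sum]
    exact Finset.sum_congr rfl fun i _ => by rw [xx, yy, pderiv_comm]; ring
  have e3 := e1
  have e4 := e2
  rw [Finset.sum_comm] at e3 e4
  have e : ∑ i, ∑ j, plk xx yy i j * cay i j r =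
      ∑ i, ∑ j, xx i * yy j * pderiv (0, i) (pderiv (1, j) r) -
      ∑ i, ∑ j, xx i * yy j * pderiv (0, j) (pderiv (1, i) r) -
      ∑ i, ∑ j, xx j * yy i * pderiv (0, i) (pderiv (1, j) r) +
      ∑ i, ∑ j, xx j * yy i * pderiv (0, j) (pderiv (1, i) r) := by
    simp only [← Finset.sum_sub_distrib, ← Finset.sum_add_distrib, plk, cay]
    exact Finset.sum_congr rfl fun i _ => Finset.sum_congr rfl fun j _ => by ring
  rw [e, e1, e2, e3, e4]
  push_cast
  ring

theorem fft (k : ℕ) : ∀ r : PP, BH r k k → eD r = 0 → ∃ P : MvPolynomial (Fin 6 × Fin 6) ℂ,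
    P.IsHomogeneous k ∧ r = aeval (fun m : Fin 6 × Fin 6 => plk xx yy m.1 m.2) P := by
  induction k with
  | zero =>
    intro r h _
    exact ⟨C (constantCoeff r), isHomogeneous_C _ _, by rw [aeval_C]; exact h.eq_C⟩
  | succ k ih =>
    intro r h he
    have hb : ∀ i j, BH (pderiv (0, i) (pderiv (1, j) r)) k k := fun i j =>
      ((h.dy j).dx i).cast (by push_cast; ring) (by push_cast; ring)
    choose P hP e using fun i j => ih (cay i j r) ((hb i j).sub (hb j i))
      (by rw [e_cay, he]; simp [cay])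
    refine ⟨C (1 / (2 * (k + 2) * (k + 1)) : ℂ) * ∑ i, ∑ j, X (i, j) * P i j, ?_, ?_⟩
    · refine IsWeightedHomogeneous.C_mul (IsHomogeneous.sum _ _ _ fun i _ =>
        IsHomogeneous.sum _ _ _ fun j _ => ?_) _
      rw [add_comm]
      exact (isHomogeneous_X _ _).mul (hP i j)
    · simp only [map_mul, map_sum, aeval_X, aeval_C, ← e, capelli h he, algebraMap_eq]
      have : (C (1 / (2 * (k + 2) * (k + 1)) : ℂ) : PP) *
          ((2 * (((k + 1 : ℕ) : ℤ) + 1) * ((k + 1 : ℕ) : ℤ) : ℤ) : PP) = 1 := by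
        rw [← map_intCast (C : ℂ →+* PP), ← map_mul, ← map_one C]
        congr 1
        have h1 : (k + 1 : ℂ) ≠ 0 := by exact_mod_cast Nat.succ_ne_zero k
        have h2 : (k + 2 : ℂ) ≠ 0 := by exact_mod_cast Nat.succ_ne_zero (k + 1)
        push_cast
        field_simp
        ring
      rw [← mul_assoc, this, one_mul]

variable {G : MvPolynomial (Fin 6) ℂ} {K : Type} [Field K] [Algebra ℂ K] {a : Fin 8 → K}

/-- **projective normality** -/
theorem sec_form (hG : G.IsHomogeneous 3) (R : RSq (ten G)) (g : GenPt G a) {k : ℕ} {s : K}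
    (hs : s ∈ Sec (plk (pv a) (qv a)) k) : ∃ P : MvPolynomial (Fin 6 × Fin 6) ℂ,
      P.IsHomogeneous k ∧ s = aeval (fun m : Fin 6 × Fin 6 => plk (pv a) (qv a) m.1 m.2) P := by
  obtain ⟨r, hr, e⟩ := lift_sec hG R g hs
  obtain ⟨v, h1, h2, h3⟩ := exists_inv a k r hr
    ((hr.e_iter (k + 1)).eq_zero (Or.inr (by push_cast; omega))) (by
      rw [rho_e, e]
      simp [Derivation.leibniz, Derivation.leibniz_pow, e_dt])
  obtain ⟨P, hP, rfl⟩ := fft k v h1 h2
  refine ⟨P, hP, ?_⟩
  have e' : (C (aeval (fun m : Fin 6 × Fin 6 => plk (pv a) (qv a) m.1 m.2) P) : BP (Fin 2) K) =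
      aeval (fun m : Fin 6 × Fin 6 => C (plk (pv a) (qv a) m.1 m.2)) P :=
    comp_aeval_apply _ (IsScalarTower.toAlgHom ℂ K (BP (Fin 2) K)) P
  rw [comp_aeval_apply, e] at h3
  simp only [rho_plk] at h3
  rw [aeval_hom_mul hP, ← e'] at h3
  exact (C_injective _ _ (mul_left_cancel₀ (pow_ne_zero _ dt_ne) h3)).symm

end Crest.Agent.X262.Rig38
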