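import Crest.Agent.X262.Rig38.Tri

/-!
# Row 262, G4, RIG (helper38): bihomogeneous polynomials

* `BH p a b`, `cp a b` (components), `cp_map`, `cp_mul`;
* `dd a b` : the derivations `∑ i, X (a, i) ∂ / ∂ X (b, i)`, Euler identities, `sl₂` relation;
* `BH.f_zero` : a highest weight vector of bidegree `(2, 2)` is invariant.
-/

set_option autoImplicit false

open MvPolynomial

noncomputable section

namespace Crest.Agent.X262.Rig38

section gen

variable {n R : Type} [CommRing R]

/-- polynomials in two vectors -/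
abbrev BP (n R : Type) [CommRing R] : Type := MvPolynomial (Fin 2 × n) R

/-- the bidegree -/
def wt (n : Type) : Fin 2 × n → ℤ × ℤ := fun m => if m.1 = 0 then (1, 0) else (0, 1)

/-- bihomogeneous polynomials -/
def BH (p : BP n R) (a b : ℤ) : Prop := IsWeightedHomogeneous (wt n) p (a, b)

theorem BH.cast {p : BP n R} {a b a' b' : ℤ} (h : BH p a b) (ha : a = a') (hb : b = b') :
    BH p a' b' := ha ▸ hb ▸ h

theorem bh_zero (a b : ℤ) : BH (0 : BP n R) a b := isWeightedHomogeneous_zero _ _ _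

theorem bh_C (r : R) : BH (C r : BP n R) 0 0 := isWeightedHomogeneous_C _ _

theorem bh_x (i : n) : BH (X (0, i) : BP n R) 1 0 := isWeightedHomogeneous_X _ _ _

theorem bh_y (i : n) : BH (X (1, i) : BP n R) 0 1 := isWeightedHomogeneous_X _ _ _

theorem BH.add {p q : BP n R} {a b : ℤ} (h : BH p a b) (h' : BH q a b) : BH (p + q) a b :=
  IsWeightedHomogeneous.add h h'

theorem BH.sub {p q : BP n R} {a b : ℤ} (h : BH p a b) (h' : BH q a b) : BH (p - q) a b :=
  IsWeightedHomogeneous.sub h h'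

theorem BH.neg {p : BP n R} {a b : ℤ} (h : BH p a b) : BH (-p) a b :=
  IsWeightedHomogeneous.neg h

theorem BH.mul {p q : BP n R} {a b a' b' : ℤ} (h : BH p a b) (h' : BH q a' b') :
    BH (p * q) (a + a') (b + b') := IsWeightedHomogeneous.mul h h'

theorem BH.C_mul {p : BP n R} {a b : ℤ} (h : BH p a b) (r : R) : BH (C r * p) a b :=
  IsWeightedHomogeneous.C_mul h r

theorem BH.sum {ι : Type} (s : Finset ι) (p : ι → BP n R) {a b : ℤ} (h : ∀ i ∈ s, BH (p i) a b) :
    BH (∑ i ∈ s, p i) a b := IsWeightedHomogeneous.sum s p _ h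

theorem BH.pow {p : BP n R} {a b : ℤ} (h : BH p a b) (k : ℕ) : BH (p ^ k) (k * a) (k * b) := by
  induction k with
  | zero => simpa using bh_C (n := n) (1 : R)
  | succ k ih =>
    rw [pow_succ]
    exact (ih.mul h).cast (by push_cast; ring) (by push_cast; ring)

theorem BH.dx {p : BP n R} {a b : ℤ} (h : BH p a b) (i : n) : BH (pderiv (0, i) p) (a - 1) b :=
  IsWeightedHomogeneous.pderiv h (by simp [wt])

theorem BH.dy {p : BP n R} {a b : ℤ} (h : BH p a b) (i : n) : BH (pderiv (1, i) p) a (b - 1) :=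
  IsWeightedHomogeneous.pderiv h (by simp [wt])

theorem bh_tri {S : Type} [CommRing S] [Algebra S (BP n R)] (c : T3 S)
    (hc : ∀ i j k, BH (algebraMap S (BP n R) (c i j k)) 0 0) {u v w : Fin 6 → BP n R}
    {a b a' b' a'' b'' : ℤ} (hu : ∀ i, BH (u i) a b) (hv : ∀ i, BH (v i) a' b')
    (hw : ∀ i, BH (w i) a'' b'') : BH (tri c u v w) (a + a' + a'') (b + b' + b'') :=
  BH.sum _ _ fun i _ => BH.sum _ _ fun j _ => BH.sum _ _ fun k _ =>
    ((((hc i j k).mul (hu i)).mul (hv j)).mul (hw k)).cast (by ring) (by ring)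

/-- bihomogeneous components -/
def cp (a b : ℤ) : BP n R →ₗ[R] BP n R := weightedHomogeneousComponent (wt n) (a, b)

theorem bh_cp (a b : ℤ) (p : BP n R) : BH (cp a b p) a b :=
  weightedHomogeneousComponent_isWeightedHomogeneous _ _

theorem BH.cp_eq {p : BP n R} {a b : ℤ} (h : BH p a b) : cp a b p = p :=
  IsWeightedHomogeneous.weightedHomogeneousComponent_same h

theorem BH.cp_ne {p : BP n R} {a b a' b' : ℤ} (h : BH p a b) (h' : (a', b') ≠ (a, b)) :
    cp a' b' p = 0 :=
  IsWeightedHomogeneous.weightedHomogeneousComponent_ne _ h h'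

theorem cp_map {n' R' : Type} [CommRing R'] (F : BP n R →+ BP n' R') (s t : ℤ)
    (hF : ∀ p a b, BH p a b → BH (F p) (a + s) (b + t)) (a b : ℤ) (p : BP n R) :
    cp (a + s) (b + t) (F p) = F (cp a b p) := by
  induction p using MvPolynomial.induction_on' with
  | add p q hp hq => simp only [map_add, hp, hq]
  | monomial m r =>
    have h : BH (monomial m r : BP n R) (Finsupp.weight (wt n) m).1 (Finsupp.weight (wt n) m).2 :=
      isWeightedHomogeneous_monomial _ _ _ rfl
    by_cases e : (a, b) = ((Finsupp.weight (wt n) m).1, (Finsupp.weight (wt n) m).2)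
    · obtain ⟨rfl, rfl⟩ := Prod.mk.inj e
      rw [h.cp_eq, (hF _ _ _ h).cp_eq]
    · rw [h.cp_ne e, (hF _ _ _ h).cp_ne, map_zero]
      intro e'
      obtain ⟨e1, e2⟩ := Prod.mk.inj e'
      exact e (Prod.ext (by simpa using e1) (by simpa using e2))

theorem cp_mul {φ : BP n R} {s t : ℤ} (h : BH φ s t) (a b : ℤ) (p : BP n R) :
    cp a b (p * φ) = cp (a - s) (b - t) p * φ := by
  have := cp_map (AddMonoidHom.mulRight φ) s t (fun p a b hp => hp.mul h) (a - s) (b - t) p
  simpa using this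

variable [Fintype n]

theorem weight_wt (m : Fin 2 × n →₀ ℕ) : Finsupp.weight (wt n) m =
    (((∑ i, m (0, i) : ℕ) : ℤ), ((∑ i, m (1, i) : ℕ) : ℤ)) := by
  rw [Finsupp.weight_apply, Finsupp.sum_fintype _ _ (fun _ => by simp),
    Fintype.sum_prod_type, Fin.sum_univ_two]
  ext <;> simp [wt, Prod.fst_sum, Prod.snd_sum]

theorem BH.eq_zero {p : BP n R} {a b : ℤ} (h : BH p a b) (h' : a < 0 ∨ b < 0) : p = 0 := by
  ext m
  by_contra hm
  have e := h hm
  rw [weight_wt] at e
  obtain ⟨e1, e2⟩ := Prod.mk.inj e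
  omega

theorem BH.eq_C {p : BP n R} (h : BH p 0 0) : p = C (constantCoeff p) := by
  classical
  ext m
  rw [coeff_C]
  split_ifs with hm
  · rw [← hm]
    rfl
  · by_contra hm'
    have e := h hm'
    rw [weight_wt] at e
    obtain ⟨e1, e2⟩ := Prod.mk.inj e
    have e1' : ∑ i, m (0, i) = 0 := by exact_mod_cast e1
    have e2' : ∑ i, m (1, i) = 0 := by exact_mod_cast e2
    rw [Finset.sum_eq_zero_iff] at e1' e2'
    refine hm (Finsupp.ext fun ⟨k, i⟩ => ?_)
    fin_cases k
    · exact (e1' i (Finset.mem_univ _)).symm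
    · exact (e2' i (Finset.mem_univ _)).symm

variable [DecidableEq n]

/-- polarisation operators -/
def dd (n R : Type) [CommRing R] [DecidableEq n] (a b : Fin 2) : Derivation R (BP n R) (BP n R) :=
  mkDerivation R fun m => if m.1 = b then X (a, m.2) else 0

omit [Fintype n] in
theorem dd_X (a b k : Fin 2) (i : n) :
    dd n R a b (X (k, i)) = if k = b then X (a, i) else 0 := mkDerivation_X _ _ _

theorem dd_apply (a b : Fin 2) (p : BP n R) :
    dd n R a b p = ∑ i, X (a, i) * pderiv (b, i) p := by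
  induction p using MvPolynomial.induction_on with
  | C r => simp
  | add p q hp hq => simp only [map_add, hp, hq, mul_add, Finset.sum_add_distrib]
  | mul_X p m hp =>
    obtain ⟨k, j⟩ := m
    simp only [Derivation.leibniz, smul_eq_mul, hp, dd_X, mul_add, Finset.sum_add_distrib,
      Finset.mul_sum, pderiv_X, Pi.single_apply, Prod.mk.injEq]
    congr 1
    · by_cases hk : k = b
      · simp [hk, mul_comm]
      · simp [hk]
    · exact Finset.sum_congr rfl fun i _ => by ring

theorem BH.euler {p : BP n R} {a b : ℤ} (h : BH p a b) :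
    dd n R 0 0 p = (a : BP n R) * p ∧ dd n R 1 1 p = (b : BP n R) * p := by
  refine IsWeightedHomogeneous.induction_on (motive := fun p _ =>
    dd n R 0 0 p = (a : BP n R) * p ∧ dd n R 1 1 p = (b : BP n R) * p) ?_ ?_ ?_ h
  · simp
  · intro p q _ _ hp hq
    simp only [map_add, hp.1, hp.2, hq.1, hq.2, mul_add, and_self]
  · intro m r hm
    rw [weight_wt] at hm
    obtain ⟨rfl, rfl⟩ := Prod.mk.inj hm
    simp only [dd_apply, X_mul_pderiv_monomial, nsmul_eq_mul, Int.cast_natCast, Nat.cast_sum,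
      Finset.sum_mul, Int.cast_sum, and_self]

theorem BH.ex {p : BP n R} {a b : ℤ} (h : BH p a b) :
    ∑ i, X (0, i) * pderiv (0, i) p = (a : BP n R) * p := by
  rw [← dd_apply, h.euler.1]

theorem BH.ey {p : BP n R} {a b : ℤ} (h : BH p a b) :
    ∑ i, X (1, i) * pderiv (1, i) p = (b : BP n R) * p := by
  rw [← dd_apply, h.euler.2]

theorem BH.e {p : BP n R} {a b : ℤ} (h : BH p a b) : BH (dd n R 0 1 p) (a + 1) (b - 1) := by
  rw [dd_apply]
  exact BH.sum _ _ fun i _ => ((bh_x i).mul (h.dy i)).cast (by ring) (by ring)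

theorem BH.f {p : BP n R} {a b : ℤ} (h : BH p a b) : BH (dd n R 1 0 p) (a - 1) (b + 1) := by
  rw [dd_apply]
  exact BH.sum _ _ fun i _ => ((bh_y i).mul (h.dx i)).cast (by ring) (by ring)

omit [Fintype n] in
theorem dd_comm (p : BP n R) : dd n R 0 1 (dd n R 1 0 p) =
    dd n R 1 0 (dd n R 0 1 p) + (dd n R 0 0 p - dd n R 1 1 p) := by
  induction p using MvPolynomial.induction_on with
  | C r => simp
  | add p q hp hq =>
    simp only [map_add, hp, hq]
    ring
  | mul_X p m hp =>
    obtain ⟨k, j⟩ := m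
    simp only [Derivation.leibniz, smul_eq_mul, map_add, hp, dd_X]
    fin_cases k <;> simp [dd_X] <;> ring

theorem BH.ef {p : BP n R} {a b : ℤ} (h : BH p a b) : dd n R 0 1 (dd n R 1 0 p) =
    dd n R 1 0 (dd n R 0 1 p) + ((a - b : ℤ) : BP n R) * p := by
  rw [dd_comm, h.euler.1, h.euler.2]
  push_cast
  ring

end gen

/-- the raising operator -/
abbrev eD : Derivation ℂ PP PP := dd (Fin 6) ℂ 0 1

/-- the lowering operator -/
abbrev fD : Derivation ℂ PP PP := dd (Fin 6) ℂ 1 0

theorem eq_zero_of_nat_mul {k : ℕ} (hk : k ≠ 0) {p : PP} (h : (k : PP) * p = 0) : p = 0 :=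
  (mul_eq_zero.1 h).resolve_left (Nat.cast_ne_zero.2 hk)

theorem BH.f_zero {p : PP} (h : BH p 2 2) (he : eD p = 0) : fD p = 0 := by
  have h1 := h.f
  have h2 := h1.f
  have h3 : fD (fD (fD p)) = 0 := h2.f.eq_zero (Or.inl (by norm_num))
  have e0 := h.ef
  have e1 := h1.ef
  have e2 := h2.ef
  rw [he] at e0
  simp only [map_zero, sub_self, Int.cast_zero, zero_mul, add_zero] at e0
  rw [e0] at e1
  norm_num at e1
  rw [h3, e1] at e2
  have e3 : fD (fD p) = 0 := by
    refine eq_zero_of_nat_mul (k := 6) (by norm_num) ?_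
    have : fD (2 * fD p) = 2 * fD (fD p) := by
      rw [two_mul, two_mul, map_add]
    simp only [map_zero, map_neg, this] at e2
    norm_num at e2
    push_cast
    linear_combination e2
  rw [e3, map_zero] at e1
  refine eq_zero_of_nat_mul (k := 2) (by norm_num) ?_
  push_cast
  linear_combination e1

@[simp] theorem eD_xx (i : Fin 6) : eD (xx i) = 0 := by simp [xx, dd_X]

@[simp] theorem eD_yy (i : Fin 6) : eD (yy i) = xx i := by simp [xx, yy, dd_X]

@[simp] theorem fD_xx (i : Fin 6) : fD (xx i) = yy i := by simp [xx, yy, dd_X]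

@[simp] theorem fD_yy (i : Fin 6) : fD (yy i) = 0 := by simp [yy, dd_X]

theorem bh_xx (i : Fin 6) : BH (xx i) 1 0 := bh_x i

theorem bh_yy (i : Fin 6) : BH (yy i) 0 1 := bh_y i

/-- polynomials of bidegree `(1, 1)` -/
theorem BH.eq11 {p : PP} (h : BH p 1 1) :
    p = ∑ i, ∑ j, C (constantCoeff (pderiv (1, j) (pderiv (0, i) p))) * xx i * yy j := by
  have e1 := h.ex
  simp only [Int.cast_one, one_mul] at e1
  conv_lhs => rw [← e1]
  refine Finset.sum_congr rfl fun i _ => ?_
  have e2 := (h.dx i).ey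
  simp only [Int.cast_one, one_mul] at e2
  conv_lhs => rw [← e2, Finset.mul_sum]
  refine Finset.sum_congr rfl fun j _ => ?_
  rw [← BH.eq_C (((h.dx i).dy j).cast (by ring) (by ring)), xx, yy]
  ring

/-- polynomials of bidegree `(3, 0)` -/
theorem BH.eq30 {p : PP} (h : BH p 3 0) : ∃ s : T3 ℂ, Sy s ∧ p = tri s xx xx xx := by
  refine ⟨fun i j k => (1 / 6 : ℂ) *
    constantCoeff (pderiv (0, i) (pderiv (0, j) (pderiv (0, k) p))),
    ⟨fun i j k => by rw [pderiv_comm (0, i) (0, j)],
      fun i j k => by rw [pderiv_comm (0, j) (0, k)]⟩, ?_⟩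
  have h1 : ∀ k, BH (pderiv (0, k) p) 2 0 := fun k => (h.dx k).cast (by ring) rfl
  have h2 : ∀ j k, BH (pderiv (0, j) (pderiv (0, k) p)) 1 0 :=
    fun j k => ((h1 k).dx j).cast (by ring) rfl
  have h3 : ∀ i j k, BH (pderiv (0, i) (pderiv (0, j) (pderiv (0, k) p))) 0 0 :=
    fun i j k => ((h2 j k).dx i).cast (by ring) rfl
  have e : tri (fun i j k => (1 / 6 : ℂ) *
      constantCoeff (pderiv (0, i) (pderiv (0, j) (pderiv (0, k) p)))) xx xx xx =
      C (1 / 6 : ℂ) * ∑ k, X (0, k) * ∑ j, X (0, j) * ∑ i,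
      X (0, i) * pderiv (0, i) (pderiv (0, j) (pderiv (0, k) p)) := by
    simp only [tri, Finset.mul_sum, algebraMap_eq, map_mul]
    rw [Finset.sum_comm]
    refine Eq.trans (Finset.sum_congr rfl fun j _ => Finset.sum_comm) ?_
    rw [Finset.sum_comm]
    refine Finset.sum_congr rfl fun k _ => Finset.sum_congr rfl fun j _ =>
      Finset.sum_congr rfl fun i _ => ?_
    rw [← BH.eq_C (h3 i j k), xx, xx, xx]
    ring
  rw [e]
  simp only [(h2 _ _).ex, Int.cast_one, one_mul, (h1 _).ex]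
  have e2 : ∑ k, X (0, k) * (((2 : ℤ) : PP) * pderiv (0, k) p) =
      2 * ∑ k, X (0, k) * pderiv (0, k) p := by
    rw [Finset.mul_sum]
    exact Finset.sum_congr rfl fun k _ => by push_cast; ring
  rw [e2, h.ex]
  have e3 : (C (1 / 6 : ℂ) : PP) * 6 = 1 := by
    rw [show (6 : PP) = C 6 from rfl, ← map_mul]
    norm_num
  push_cast
  linear_combination -p * e3

end Crest.Agent.X262.Rig38
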