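import Crest.Agent.X262.Rig38.Rho

/-!
# Row 262, G4, RIG (helper38): the first order statements

* `thA` : `H⁰(Λ² V ⊗ O(1)) → H⁰(Λ² Q(1))` is onto;
* `thC` : `H⁰(Sym³ S^*)` consists of cubic forms;
* `wedge_zero` : the obstruction to the Pluecker relations is divisible by the Pluecker point.
-/

set_option autoImplicit false
set_option linter.unusedSectionVars false

open MvPolynomial

noncomputable section

namespace Crest.Agent.X262.Rig38

variable {G : MvPolynomial (Fin 6) ℂ} {K : Type} [Field K] [Algebra ℂ K] {a : Fin 8 → K}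

theorem lift_inv (hG : G.IsHomogeneous 3) (R : RSq (ten G)) (g : GenPt G a) {s : K}
    (hs : s ∈ Sec (plk (pv a) (qv a)) 2) :
    ∃ r, BH r 2 2 ∧ rho a r = dt K ^ 2 * C s ∧ eD r = 0 := by
  obtain ⟨r, hr, e⟩ := lift_sec hG R g hs
  have he : eD r ∈ II (ten G) := (rho_eq_zero hG R g).1 (by
    rw [rho_e, e, sq]
    simp [Derivation.leibniz, e_dt])
  obtain ⟨r', h1, h2, h3⟩ := lift22 (ten_sy G) hr he
  refine ⟨r', h1, ?_, h3⟩
  have := (rho_eq_zero hG R g).2 h2
  rw [map_sub, e] at this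
  exact (sub_eq_zero.1 this).symm

theorem thA (hG : G.IsHomogeneous 3) (R : RSq (ten G)) (g : GenPt G a) {θ : T4 K}
    (hs : ∀ i j k l, θ i j k l ∈ Sec (plk (pv a) (qv a)) 2) (ht : Alt4 θ)
    (hp : ∀ i j k l m, W4 (pv a) θ i j k l m = 0) (hq : ∀ i j k l m, W4 (qv a) θ i j k l m = 0) :
    ∃ M : Fin 6 × Fin 6 → Fin 6 × Fin 6 → ℂ, (∀ i j m, M (j, i) m = -M (i, j) m) ∧
      ∀ i j k l, θ i j k l = P2 (plk (pv a) (qv a))
        (fun i j => ∑ m, algebraMap ℂ K (M (i, j) m) * plk (pv a) (qv a) m.1 m.2) i j k l := by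
  choose T hT e he using fun i j k l => lift_inv hG R g (hs i j k l)
  have alt : ∀ i j k l i' j' k' l', θ i' j' k' l' = -θ i j k l → T i' j' k' l' = -T i j k l :=
    fun i j k l i' j' k' l' h => eq_neg_of_add_eq_zero_left (uniq22 (ten_sy G) R
      ((hT ..).add (hT ..)) ((rho_eq_zero hG R g).1 (by rw [map_add, e, e, h, map_neg]; ring))
      (by rw [map_add, he, he, add_zero]))
  have hI : ∀ i j k l m, W4 xx T i j k l m ∈ II (ten G) := fun i j k l m =>
    (rho_eq_zero hG R g).1 (by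
      have h1 := congrArg (C : K →+* BP (Fin 2) K) (hp i j k l m)
      have h2 := congrArg (C : K →+* BP (Fin 2) K) (hq i j k l m)
      simp only [W4, map_add, map_sub, map_mul, map_zero, e, rho_xx] at h1 h2 ⊢
      linear_combination dt K ^ 2 * X (0, 0) * h1 + dt K ^ 2 * X (0, 1) * h2)
  obtain ⟨Z, hZ, hZ', eZ⟩ := homotopy hT ⟨fun i j k l => alt _ _ _ _ _ _ _ _ (ht.s1 ..),
    fun i j k l => alt _ _ _ _ _ _ _ _ (ht.s2 ..), fun i j k l => alt _ _ _ _ _ _ _ _ (ht.s3 ..)⟩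
    (fun i j k l => (hT i j k l).f_zero (he i j k l)) (kill (ten_sy G) R hT he hI)
  obtain ⟨z, hz⟩ : ∃ z : Fin 6 → Fin 6 → Fin 6 → Fin 6 → ℂ, ∀ i j s t,
    z i j s t = constantCoeff (pderiv (1, t) (pderiv (0, s) (Z i j))) := ⟨_, fun _ _ _ _ => rfl⟩
  have eZ' : ∀ i j, Z i j = ∑ s, ∑ t, C (z i j s t) * xx s * yy t := fun i j => by
    simp only [hz]
    exact (hZ i j).eq11
  refine ⟨fun m m' => (1 / 40 : ℂ) * z m.1 m.2 m'.1 m'.2, fun i j m => ?_, fun i j k l => ?_⟩
  · simp only [hz, hZ' i j, map_neg, mul_neg]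
  · have ev : ∀ (γ : Fin 2 × Fin 2 → K) i j, eval γ (rho a (Z i j)) = ∑ s, ∑ t,
        algebraMap ℂ K (z i j s t) * (γ (0, 0) * pv a s + γ (0, 1) * qv a s) *
          (γ (1, 0) * pv a t + γ (1, 1) * qv a t) := fun γ i j => by
      rw [eZ']
      simp only [map_sum, map_mul, rho_xx, rho_yy, map_add, eval_X, eval_C, algHom_C]
      simp [MvPolynomial.algebraMap_apply]
    have df : ∀ i j, ∑ m : Fin 6 × Fin 6, algebraMap ℂ K ((1 / 40 : ℂ) * z i j m.1 m.2) *
        plk (pv a) (qv a) m.1 m.2 = algebraMap ℂ K (1 / 40) *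
        (eval (fun m : Fin 2 × Fin 2 => if m.1 = m.2 then (1 : K) else 0) (rho a (Z i j)) -
          eval (fun m : Fin 2 × Fin 2 => if m.1 = m.2 then (0 : K) else 1) (rho a (Z i j))) := by
      intro i j
      rw [ev, ev, Fintype.sum_prod_type]
      simp only [← Finset.sum_sub_distrib, Finset.mul_sum]
      refine Finset.sum_congr rfl fun s _ => Finset.sum_congr rfl fun t _ => ?_
      simp [plk]
      ring
    have h0 := congrArg (rho a) (eZ i j k l)
    have h1 := congrArg (eval fun m : Fin 2 × Fin 2 => if m.1 = m.2 then (1 : K) else 0) h0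
    have h2 := congrArg (eval fun m : Fin 2 × Fin 2 => if m.1 = m.2 then (0 : K) else 1) h0
    have d1 : eval (fun m : Fin 2 × Fin 2 => if m.1 = m.2 then (1 : K) else 0) (dt K) = 1 := by
      simp [dt]
    have d2 : eval (fun m : Fin 2 × Fin 2 => if m.1 = m.2 then (0 : K) else 1) (dt K) = -1 := by
      simp [dt]
    simp only [P2, map_add, map_sub, map_mul, e, rho_plk, map_pow, d1, d2, eval_C,
      map_ofNat] at h1 h2
    simp only [P2, df]
    have h40 : algebraMap ℂ K (1 / 40) * 40 = 1 := by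
      rw [show (40 : K) = algebraMap ℂ K 40 from (map_ofNat _ 40).symm, ← map_mul]
      norm_num
    linear_combination algebraMap ℂ K (1 / 40) * (h1 + h2) - θ i j k l * h40

theorem bt_inj {A : Type} [CommRing A] [Algebra ℂ A] {b0 b1 b2 b3 c0 c1 c2 c3 : A}
    (e : ∀ s t : A, bt b0 b1 b2 b3 s t s t s t = bt c0 c1 c2 c3 s t s t s t) :
    b0 = c0 ∧ b1 = c1 ∧ b2 = c2 ∧ b3 = c3 := by
  have e1 := e 1 0
  have e2 := e 0 1
  have e3 := e 1 1
  have e4 := e 1 (-1)
  simp only [bt] at e1 e2 e3 e4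
  have h6 : algebraMap ℂ A (1 / 6) * 6 = 1 := by
    rw [show (6 : A) = algebraMap ℂ A 6 from (map_ofNat _ 6).symm, ← map_mul]
    norm_num
  refine ⟨by linear_combination e1, ?_, ?_, by linear_combination e2⟩
  · linear_combination algebraMap ℂ A (1 / 6) * (e3 - e4 - 2 * e2) - (b1 - c1) * h6
  · linear_combination algebraMap ℂ A (1 / 6) * (e3 + e4 - 2 * e1) - (b2 - c2) * h6

theorem thC (hG : G.IsHomogeneous 3) (R : RSq (ten G)) (g : GenPt G a) {b0 b1 b2 b3 : K}
    (hs : ∀ i j k, bt b0 b1 b2 b3 (-qv a i) (pv a i) (-qv a j) (pv a j) (-qv a k) (pv a k) ∈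
      Sec (plk (pv a) (qv a)) 3) :
    ∃ s : T3 ℂ, Sy s ∧ tri s (pv a) (pv a) (pv a) = b0 ∧ tri s (pv a) (pv a) (qv a) = b1 ∧
      tri s (pv a) (qv a) (qv a) = b2 ∧ tri s (qv a) (qv a) (qv a) = b3 := by
  choose Γ _ e using fun i j k => lift_sec hG R g (hs i j k)
  have hb : BH (bt (C b0) (C b1) (C b2) (C b3) (X (0, 0)) (X (0, 1)) (X (0, 0)) (X (0, 1))
      (X (0, 0)) (X (0, 1)) : BP (Fin 2) K) 3 0 := by
    have h3 : ∀ i j k : Fin 2, BH (X (0, i) * X (0, j) * X (0, k) : BP (Fin 2) K) 3 0 :=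
      fun i j k => ((bh_x i).mul (bh_x j)).mul (bh_x k)
    exact ((((h3 ..).C_mul _).add ((((h3 ..).add (h3 ..)).add (h3 ..)).C_mul _)).add
      ((((h3 ..).add (h3 ..)).add (h3 ..)).C_mul _)).add ((h3 ..).C_mul _)
  obtain ⟨r, hr, er⟩ := ext_bh hG R g hb fun i j =>
    ⟨3, xx j ^ 3 * Γ i i i - 3 * xx j ^ 2 * xx i * Γ i i j + 3 * xx j * xx i ^ 2 * Γ i j j -
      xx i ^ 3 * Γ j j j, by
      simp only [map_add, map_sub, map_mul, map_pow, map_ofNat, map_neg, e, rho_xx, rho_plk, bt]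
      simp only [plk, map_sub, map_mul]
      ring⟩
  obtain ⟨s, hs, rfl⟩ := hr.eq30
  refine ⟨s, hs, bt_inj fun u v => ?_⟩
  have := congrArg (eval fun m : Fin 2 × Fin 2 => if m.2 = 0 then u else v) er
  rw [tri_alg, tri_map (eval fun m : Fin 2 × Fin 2 => if m.2 = 0 then u else v) s s
    (fun _ _ _ => by simp [MvPolynomial.algebraMap_apply])] at this
  rw [← hs.tri_comb]
  simpa [rho_xx, bt] using this

theorem alt6_zero {L : Type} [Field L] [CharZero L] (F : Fin 6 → (Fin 5 → Fin 6) → L)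
    (sw : ∀ i I r, F (I r) (Function.update I r i) = -F i I) (p q : Fin 6 → L)
    (h : ∀ i I, F i I = p i * F 0 I + q i * F 1 I) (i : Fin 6) (I : Fin 5 → Fin 6) :
    F i I = 0 := by
  have Z : ∀ i I r, I r = i → F i I = 0 := fun i I r e => by
    have := sw i I r
    rw [e, ← e, Function.update_eq_self, e] at this
    linear_combination (1 / 2 : L) * this
  have Y : ∀ i I r s, I r = 0 → I s = 1 → F i I = 0 := fun i I r s e e' => by
    rw [h, Z 0 I r e, Z 1 I s e', mul_zero, mul_zero, add_zero]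
  have P : ∀ i I, (∀ r, I r ≠ 0) → (∀ r, I r ≠ 1) → F i I = 0 := fun i I h0 h1 => by
    obtain ⟨r, -, s, -, hrs, e⟩ := Finset.exists_ne_map_eq_of_card_lt_of_maps_to
      (s := (Finset.univ : Finset (Fin 5))) (t := ((Finset.univ : Finset (Fin 6)).erase 0).erase 1)
      (by decide) (f := I) (fun r _ => by simp [h0 r, h1 r])
    rw [← neg_eq_zero, ← sw i I r]
    exact Z _ _ s (by rw [Function.update_of_ne hrs.symm, e])
  have X0 : F 0 I = 0 := by
    by_cases h0 : ∃ r, I r = 0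
    · obtain ⟨r, e⟩ := h0
      exact Z 0 I r e
    by_cases h1 : ∃ s, I s = 1
    · obtain ⟨s, e⟩ := h1
      obtain ⟨r, hr⟩ := exists_ne s
      rw [← neg_eq_zero, ← sw 0 I r]
      exact Y _ _ r s (Function.update_self ..) (by rw [Function.update_of_ne hr.symm, e])
    · exact P 0 I (fun r e => h0 ⟨r, e⟩) fun r e => h1 ⟨r, e⟩
  have X1 : F 1 I = 0 := by
    by_cases h1 : ∃ r, I r = 1
    · obtain ⟨r, e⟩ := h1
      exact Z 1 I r e
    by_cases h0 : ∃ s, I s = 0
    · obtain ⟨s, e⟩ := h0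
      obtain ⟨r, hr⟩ := exists_ne s
      rw [← neg_eq_zero, ← sw 1 I r]
      exact Y _ _ s r (by rw [Function.update_of_ne hr.symm, e]) (Function.update_self ..)
    · exact P 1 I (fun r e => h0 ⟨r, e⟩) fun r e => h1 ⟨r, e⟩
  rw [h, X0, X1, mul_zero, mul_zero, add_zero]

theorem pf_swap {A : Type} [CommRing A] {w : Fin 6 → Fin 6 → A} (hw : ∀ i j, w j i = -w i j)
    (i : Fin 6) (I : Fin 5 → Fin 6) (r : Fin 5) :
    W4 (w (I r)) (P4 w) (Function.update I r i 0) (Function.update I r i 1)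
      (Function.update I r i 2) (Function.update I r i 3) (Function.update I r i 4) =
    -W4 (w i) (P4 w) (I 0) (I 1) (I 2) (I 3) (I 4) := by
  fin_cases r <;> simp [W4, P4, hw i (I 0), hw i (I 1), hw i (I 2), hw i (I 3), hw i (I 4),
    hw (I 0) (I 1), hw (I 0) (I 2), hw (I 0) (I 3), hw (I 0) (I 4), hw (I 1) (I 2),
    hw (I 1) (I 3), hw (I 1) (I 4), hw (I 2) (I 3), hw (I 2) (I 4), hw (I 3) (I 4)] <;> ring

theorem P4_alt {A : Type} [CommRing A] {w : Fin 6 → Fin 6 → A} (hw : ∀ i j, w j i = -w i j) :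
    Alt4 (P4 w) :=
  ⟨fun i j k l => by simp only [P4, hw i j]; ring, fun i j k l => by simp only [P4, hw j k]; ring,
    fun i j k l => by simp only [P4, hw k l]; ring⟩

theorem wedge_zero {A : Type} [CommRing A] [IsDomain A] (φ : A →+* K) {w : Fin 6 → Fin 6 → A}
    (hw : ∀ i j, w j i = -w i j) (hφ : ∀ i j, φ (w i j) = plk (pv a) (qv a) i j) {t : A}
    (ht : t ≠ 0) {θ : T4 A} (e : ∀ i j k l, P4 w i j k l = t * θ i j k l) :
    Alt4 (fun i j k l => φ (θ i j k l)) ∧
      (∀ i j k l m, W4 (pv a) (fun i j k l => φ (θ i j k l)) i j k l m = 0) ∧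
      ∀ i j k l m, W4 (qv a) (fun i j k l => φ (θ i j k l)) i j k l m = 0 := by
  have : CharZero K := charZero_of_injective_algebraMap (algebraMap ℂ K).injective
  have alt : ∀ i j k l i' j' k' l', P4 w i' j' k' l' = -P4 w i j k l →
      φ (θ i' j' k' l') = -φ (θ i j k l) := fun i j k l i' j' k' l' h => by
    rw [← map_neg]
    exact congrArg φ (mul_left_cancel₀ ht (by rw [← e, h, e]; ring))
  have key := alt6_zero (fun i I => φ (W4 (w i) θ (I 0) (I 1) (I 2) (I 3) (I 4)))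
    (fun i I r => by
      rw [← map_neg]
      refine congrArg φ (mul_left_cancel₀ ht ?_)
      have := pf_swap hw i I r
      simp only [W4, e] at this ⊢
      linear_combination this) (pv a) (qv a) (fun i I => by
      simp only [W4, map_add, map_sub, map_mul, hφ, plk, pv_zero, pv_one, qv_zero, qv_one]
      ring)
  refine ⟨⟨fun i j k l => alt _ _ _ _ _ _ _ _ ((P4_alt hw).s1 ..),
    fun i j k l => alt _ _ _ _ _ _ _ _ ((P4_alt hw).s2 ..),
    fun i j k l => alt _ _ _ _ _ _ _ _ ((P4_alt hw).s3 ..)⟩, fun i j k l m => ?_,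
    fun i j k l m => ?_⟩
  · have := key 1 ![i, j, k, l, m]
    simp only [W4, map_add, map_sub, map_mul, hφ, plk1] at this
    simp only [W4]
    simp at this
    linear_combination -this
  · have := key 0 ![i, j, k, l, m]
    simp only [W4, map_add, map_sub, map_mul, hφ, plk0] at this
    simpa [W4] using this

end Crest.Agent.X262.Rig38
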