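import Crest.Agent.X262.Rig38.Bih

/-!
# Row 262, G4, RIG (helper38): invariant lifts and the Koszul argument

* `lift22`, `uniq22` : highest weight lifts of bidegree `(2, 2)` exist and are unique;
* `kill` : `x ∧ θ ∈ II → x ∧ θ = 0`;
* `homotopy` : `x ∧ θ = 0 = y ∧ θ → θ = x ∧ y ∧ Z`.
-/

set_option autoImplicit false

open MvPolynomial

noncomputable section

namespace Crest.Agent.X262.Rig38

section forms

variable {A : Type} [CommRing A]

/-- four-tensors -/
abbrev T4 (A : Type) : Type := Fin 6 → Fin 6 → Fin 6 → Fin 6 → A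

/-- alternating four-tensors -/
structure Alt4 (T : T4 A) : Prop where
  s1 : ∀ i j k l, T j i k l = -T i j k l
  s2 : ∀ i j k l, T i k j l = -T i j k l
  s3 : ∀ i j k l, T i j l k = -T i j k l

/-- `x ∧ T` -/
def W4 (x : Fin 6 → A) (T : T4 A) (i j k l m : Fin 6) : A :=
  x i * T j k l m - x j * T i k l m + x k * T i j l m - x l * T i j k m + x m * T i j k l

/-- the Pluecker quadrics -/
def P4 (w : Fin 6 → Fin 6 → A) : T4 A := fun i j k l =>
  w i j * w k l - w i k * w j l + w i l * w j k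

/-- the polar forms of the Pluecker quadrics -/
def P2 (w z : Fin 6 → Fin 6 → A) : T4 A := fun i j k l =>
  w i j * z k l - w i k * z j l + w i l * z j k + w j k * z i l - w j l * z i k + w k l * z i j

end forms

variable {c : T3 ℂ}

theorem bh_tri' (c : T3 ℂ) {u v w : Fin 6 → PP} {a b a' b' a'' b'' : ℤ} (hu : ∀ i, BH (u i) a b)
    (hv : ∀ i, BH (v i) a' b') (hw : ∀ i, BH (w i) a'' b'') :
    BH (tri c u v w) (a + a' + a'') (b + b' + b'') := bh_tri c (fun _ _ _ => bh_C _) hu hv hw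

theorem bh_ph0 (c : T3 ℂ) : BH (tri c xx xx xx) 3 0 := bh_tri' c bh_xx bh_xx bh_xx
theorem bh_ph1 (c : T3 ℂ) : BH (tri c xx xx yy) 2 1 := bh_tri' c bh_xx bh_xx bh_yy
theorem bh_ph2 (c : T3 ℂ) : BH (tri c xx yy yy) 1 2 := bh_tri' c bh_xx bh_yy bh_yy
theorem bh_ph3 (c : T3 ℂ) : BH (tri c yy yy yy) 0 3 := bh_tri' c bh_yy bh_yy bh_yy

theorem eD_ph0 (c : T3 ℂ) : eD (tri c xx xx xx) = 0 := by
  rw [tri_der eD c (fun _ _ _ => by simp)]
  simp [tri_zero1, tri_zero2, tri_zero3]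

theorem eD_ph1 (c : T3 ℂ) : eD (tri c xx xx yy) = tri c xx xx xx := by
  rw [tri_der eD c (fun _ _ _ => by simp)]
  simp [tri_zero1, tri_zero2]

theorem eD_ph2 (h : Sy c) : eD (tri c xx yy yy) = 2 * tri c xx xx yy := by
  rw [tri_der eD c (fun _ _ _ => by simp)]
  simp only [eD_xx, eD_yy, tri_zero1]
  rw [h.tri_r xx yy fun l => xx l]
  ring

theorem mem_II (s0 s1 s2 s3 : PP) : s0 * tri c xx xx xx + s1 * tri c xx xx yy +
    s2 * tri c xx yy yy + s3 * tri c yy yy yy ∈ II c := by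
  refine add_mem (add_mem (add_mem ?_ ?_) ?_) ?_ <;>
    exact Ideal.mul_mem_left _ _ (Ideal.subset_span (by simp))

theorem BH.ext_II {r : PP} {a b : ℤ} (h : BH r a b) (hr : r ∈ II c) :
    ∃ s0 s1 s2 s3 : PP, BH s0 (a - 3) b ∧ BH s1 (a - 2) (b - 1) ∧ BH s2 (a - 1) (b - 2) ∧
      BH s3 a (b - 3) ∧ r = s0 * tri c xx xx xx + s1 * tri c xx xx yy + s2 * tri c xx yy yy +
        s3 * tri c yy yy yy := by
  simp only [II, Ideal.mem_span_insert, Ideal.mem_span_singleton'] at hr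
  obtain ⟨s0, _, ⟨s1, _, ⟨s2, _, ⟨s3, rfl⟩, rfl⟩, rfl⟩, e⟩ := hr
  refine ⟨cp (a - 3) (b - 0) s0, cp (a - 2) (b - 1) s1, cp (a - 1) (b - 2) s2,
    cp (a - 0) (b - 3) s3, (bh_cp _ _ _).cast rfl (by ring), bh_cp _ _ _, bh_cp _ _ _,
    (bh_cp _ _ _).cast (by ring) rfl, ?_⟩
  rw [← h.cp_eq, e]
  simp only [map_add, cp_mul (bh_ph0 c), cp_mul (bh_ph1 c), cp_mul (bh_ph2 c), cp_mul (bh_ph3 c)]
  ring

theorem RSq.syz1 (R : RSq c) {s0 s1 : PP} {a b : ℤ} (h : BH s1 a b) (ha : a < 3)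
    (e : s0 * tri c xx xx xx + s1 * tri c xx xx yy = 0) : s0 = 0 ∧ s1 = 0 := by
  have h1 : s1 ∈ Ideal.span {tri c xx xx xx} := R.n1 _ (Ideal.mem_span_singleton'.2
    ⟨-s0, by linear_combination -e⟩)
  obtain ⟨t, ht⟩ := Ideal.mem_span_singleton'.1 h1
  have h2 : s1 = 0 := by
    rw [← h.cp_eq, ← ht, cp_mul (bh_ph0 c), (bh_cp _ _ t).eq_zero (Or.inl (by omega)), zero_mul]
  rw [h2, zero_mul, add_zero] at e
  exact ⟨(mul_eq_zero.1 e).resolve_right R.ne, h2⟩

theorem half_two : (C (1 / 2 : ℂ) : PP) * 2 = 1 := by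
  rw [show (2 : PP) = C 2 from rfl, ← map_mul]
  norm_num

theorem lift22 (hs : Sy c) {r : PP} (h : BH r 2 2) (he : eD r ∈ II c) :
    ∃ r', BH r' 2 2 ∧ r - r' ∈ II c ∧ eD r' = 0 := by
  obtain ⟨s0, s1, s2, s3, h0, h1, h2, h3, e⟩ := h.e.ext_II he
  rw [h2.eq_zero (Or.inr (by norm_num)), h3.eq_zero (Or.inr (by norm_num))] at e
  have hb : BH (C (1 / 2 : ℂ) * (s1 - eD s0)) 1 0 :=
    ((h1.cast (by ring) (by ring)).sub (h0.e.cast (by ring) (by ring))).C_mul _
  have hb' : eD (C (1 / 2 : ℂ) * (s1 - eD s0)) = 0 := hb.e.eq_zero (Or.inr (by norm_num))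
  refine ⟨r - (s0 * tri c xx xx yy + (C (1 / 2 : ℂ) * (s1 - eD s0)) * tri c xx yy yy),
    h.sub (((h0.mul (bh_ph1 c)).cast (by ring) (by ring)).add
      ((hb.mul (bh_ph2 c)).cast (by ring) (by ring))), ?_, ?_⟩
  · have := mem_II (c := c) 0 s0 (C (1 / 2 : ℂ) * (s1 - eD s0)) 0
    simpa using this
  · rw [map_sub, map_add, Derivation.leibniz, Derivation.leibniz _ (C (1 / 2 : ℂ) * (s1 - eD s0)),
      hb', eD_ph1, eD_ph2 hs, e]
    simp only [smul_eq_mul]
    linear_combination -(s1 - eD s0) * tri c xx xx yy * half_two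

theorem uniq22 (hs : Sy c) (R : RSq c) {r : PP} (h : BH r 2 2) (hr : r ∈ II c) (he : eD r = 0) :
    r = 0 := by
  obtain ⟨s0, s1, s2, s3, h0, h1, h2, h3, e⟩ := h.ext_II hr
  rw [h0.eq_zero (Or.inl (by norm_num)), h3.eq_zero (Or.inr (by norm_num))] at e
  have h2' : eD s2 = 0 := h2.e.eq_zero (Or.inr (by norm_num))
  rw [e] at he
  simp only [zero_mul, zero_add, add_zero, map_add, Derivation.leibniz, smul_eq_mul, h2', eD_ph1,
    eD_ph2 hs] at he
  have hb : BH (eD s1 + (s2 + s2)) 1 0 := (h1.e.cast (by ring) (by ring)).add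
    ((h2.add h2).cast (by ring) (by ring))
  obtain ⟨e1, e2⟩ := R.syz1 (s0 := s1) hb (by norm_num) (by linear_combination he)
  have e3 : s2 = 0 := by
    rw [e1, map_zero] at e2
    linear_combination C (1 / 2 : ℂ) * e2 - s2 * half_two
  rw [e, e1, e3]
  simp

/-- the highest weight vectors in the ideal -/
def Psi (c : T3 ℂ) (a : PP) : PP :=
  a * tri c xx xx xx - eD a * tri c xx xx yy + C (1 / 2 : ℂ) * eD (eD a) * tri c xx yy yy

theorem exists_psi (hs : Sy c) (R : RSq c) {r : PP} (h : BH r 3 2) (hr : r ∈ II c)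
    (he : eD r = 0) : ∃ a, BH a 0 2 ∧ r = Psi c a := by
  obtain ⟨s0, s1, s2, s3, h0, h1, h2, h3, e⟩ := h.ext_II hr
  rw [h3.eq_zero (Or.inr (by norm_num))] at e
  have h2' : eD s2 = 0 := h2.e.eq_zero (Or.inr (by norm_num))
  rw [e] at he
  simp only [zero_mul, add_zero, map_add, Derivation.leibniz, smul_eq_mul, h2', eD_ph0, eD_ph1,
    eD_ph2 hs] at he
  have hb : BH (eD s1 + (s2 + s2)) 2 0 := (h1.e.cast (by ring) (by ring)).add
    ((h2.add h2).cast (by ring) (by ring))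
  obtain ⟨e1, e2⟩ := R.syz1 (s0 := eD s0 + s1) hb (by norm_num) (by linear_combination he)
  refine ⟨s0, h0.cast (by ring) rfl, ?_⟩
  have e3 : eD s0 = -s1 := by linear_combination e1
  rw [Psi, e3, map_neg, e]
  linear_combination tri c xx yy yy * (C (1 / 2 : ℂ) * e2 - s2 * half_two)

theorem psi_eq_zero (R : RSq c) {u : PP} (h : BH u 1 2) (e : Psi c u = 0) : u = 0 := by
  have h1 : C (1 / 2 : ℂ) * eD (eD u) ∈ Ideal.span {tri c xx xx xx, tri c xx xx yy} :=
    R.n2 _ (Ideal.mem_span_pair.2 ⟨-u, eD u, by rw [Psi] at e; linear_combination -e⟩)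
  obtain ⟨s0, s1, e1⟩ := Ideal.mem_span_pair.1 h1
  have h2 : BH (C (1 / 2 : ℂ) * eD (eD u)) 3 0 := (h.e.e.C_mul _).cast (by ring) (by ring)
  have e2 : C (1 / 2 : ℂ) * eD (eD u) = cp (3 - 3) (0 - 0) s0 * tri c xx xx xx := by
    rw [← h2.cp_eq, ← e1, map_add, cp_mul (bh_ph0 c), cp_mul (bh_ph1 c),
      (bh_cp _ _ s1).eq_zero (Or.inr (by norm_num)), zero_mul, add_zero]
  obtain ⟨-, e3⟩ := R.syz1 (s0 := u + cp (3 - 3) (0 - 0) s0 * tri c xx yy yy) h.e.neg
    (by norm_num) (by rw [Psi, e2] at e; linear_combination e)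
  rw [Psi, neg_eq_zero.1 e3, map_zero] at e
  simp only [zero_mul, mul_zero, sub_zero, add_zero] at e
  exact (mul_eq_zero.1 e).resolve_right R.ne

theorem exists_ne5 (i j k l m : Fin 6) : ∃ n, i ≠ n ∧ j ≠ n ∧ k ≠ n ∧ l ≠ n ∧ m ≠ n := by
  have : ({i, j, k, l, m} : Finset (Fin 6)).card < (Finset.univ : Finset (Fin 6)).card :=
    lt_of_le_of_lt Finset.card_le_five (by simp)
  obtain ⟨n, -, hn⟩ := Finset.exists_mem_notMem_of_card_lt_card this
  simp only [Finset.mem_insert, Finset.mem_singleton, not_or] at hn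
  exact ⟨n, Ne.symm hn.1, Ne.symm hn.2.1, Ne.symm hn.2.2.1, Ne.symm hn.2.2.2.1, Ne.symm hn.2.2.2.2⟩

theorem psi_x (i : Fin 6) (a : PP) : Psi c (xx i * a) = xx i * Psi c a := by
  simp only [Psi, Derivation.leibniz, smul_eq_mul, eD_xx, mul_zero, add_zero]
  ring

theorem psi_add (a b : PP) : Psi c (a + b) = Psi c a + Psi c b := by
  simp only [Psi, map_add]
  ring

theorem psi_sub (a b : PP) : Psi c (a - b) = Psi c a - Psi c b := by
  simp only [Psi, map_sub]
  ring

theorem dx_xx (n i : Fin 6) : pderiv (0, n) (xx i) = if i = n then 1 else 0 := by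
  simp [xx, pderiv_X, Pi.single_apply]

theorem dx_yy (n i : Fin 6) : pderiv (0, n) (yy i) = 0 := by
  simp [yy, pderiv_X]

theorem dy_yy (n i : Fin 6) : pderiv (1, n) (yy i) = if i = n then 1 else 0 := by
  simp [yy, pderiv_X, Pi.single_apply]

theorem kill (hs : Sy c) (R : RSq c) {T : T4 PP} (h : ∀ i j k l, BH (T i j k l) 2 2)
    (he : ∀ i j k l, eD (T i j k l) = 0) (hI : ∀ i j k l m, W4 xx T i j k l m ∈ II c)
    (i j k l m : Fin 6) : W4 xx T i j k l m = 0 := by
  have hx : ∀ i j k l m, BH (xx i * T j k l m) 3 2 := fun i j k l m =>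
    ((bh_xx i).mul (h j k l m)).cast (by ring) (by ring)
  have H : ∀ i j k l m, ∃ a, BH a 0 2 ∧ W4 xx T i j k l m = Psi c a := fun i j k l m =>
    exists_psi hs R (((((hx ..).sub (hx ..)).add (hx ..)).sub (hx ..)).add (hx ..)) (hI i j k l m)
      (by simp [W4, Derivation.leibniz, he])
  choose a ha e using H
  have hx' : ∀ n i j k l m, BH (xx n * a i j k l m) 1 2 := fun n i j k l m =>
    ((bh_xx n).mul (ha i j k l m)).cast (by ring) (by ring)
  obtain ⟨n, hi, hj, hk, hl, hm⟩ := exists_ne5 i j k l m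
  have e1 : xx n * a i j k l m - xx i * a n j k l m + xx j * a n i k l m - xx k * a n i j l m +
      xx l * a n i j k m - xx m * a n i j k l = 0 := by
    refine psi_eq_zero R ((((((hx' ..).sub (hx' ..)).add (hx' ..)).sub (hx' ..)).add
      (hx' ..)).sub (hx' ..)) ?_
    simp only [psi_add, psi_sub, psi_x, ← e, W4]
    ring
  have hd : ∀ i j k l m, pderiv (0, n) (a i j k l m) = 0 := fun i j k l m =>
    ((ha i j k l m).dx n).eq_zero (Or.inl (by norm_num))
  have e2 := congrArg (pderiv (0, n)) e1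
  simp only [map_add, map_sub, Derivation.leibniz, smul_eq_mul, hd, dx_xx, hi, hj, hk, hl, hm,
    if_true, if_false, mul_zero, mul_one, zero_add, add_zero, sub_zero, map_zero] at e2
  rw [e, e2]
  simp [Psi]

theorem homotopy {T : T4 PP} (h : ∀ i j k l, BH (T i j k l) 2 2) (ht : Alt4 T)
    (hf : ∀ i j k l, fD (T i j k l) = 0) (hx : ∀ i j k l m, W4 xx T i j k l m = 0) :
    ∃ Z : Fin 6 → Fin 6 → PP, (∀ i j, BH (Z i j) 1 1) ∧ (∀ i j, Z j i = -Z i j) ∧
      ∀ i j k l, 20 * T i j k l = P2 (plk xx yy) Z i j k l := by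
  have hy : ∀ i j k l m, W4 yy T i j k l m = 0 := fun i j k l m => by
    have := congrArg fD (hx i j k l m)
    simp only [W4, map_add, map_sub, Derivation.leibniz, hf, smul_eq_mul, fD_xx, map_zero] at this
    rw [W4]
    linear_combination this
  obtain ⟨U, hU⟩ : ∃ U : Fin 6 → Fin 6 → Fin 6 → PP,
    ∀ k l m, U k l m = ∑ i, pderiv (0, i) (T i k l m) := ⟨_, fun _ _ _ => rfl⟩
  have hUb : ∀ k l m, BH (U k l m) 1 2 := fun k l m => by
    rw [hU]
    exact BH.sum _ _ fun i _ => ((h i k l m).dx i).cast (by ring) rfl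
  have U1 : ∀ k l m, U l k m = -U k l m := fun k l m => by
    simp only [hU, ht.s2 _ k l m, map_neg, Finset.sum_neg_distrib]
  have U2 : ∀ k l m, U k m l = -U k l m := fun k l m => by
    simp only [hU, ht.s3 _ k l m, map_neg, Finset.sum_neg_distrib]
  have e1 : ∀ j k l m, 4 * T j k l m =
      xx j * U k l m - xx k * U j l m + xx l * U j k m - xx m * U j k l := fun j k l m => by
    have : ∑ i, pderiv (0, i) (W4 xx T i j k l m) = 0 := by simp [hx]
    have ex := (h j k l m).ex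
    simp only [W4, map_add, map_sub, Derivation.leibniz, smul_eq_mul, dx_xx, Finset.sum_add_distrib,
      Finset.sum_sub_distrib, ← Finset.mul_sum, ← hU, if_true, mul_ite, mul_one, mul_zero,
      Finset.sum_ite_eq, Finset.mem_univ, Finset.sum_const, Finset.card_univ, Fintype.card_fin,
      nsmul_eq_mul] at this
    simp only [xx] at this ⊢
    rw [ex, ht.s1 j k l m, ht.s1 j l k m, ht.s2 j k l m, ht.s1 j m k l, ht.s2 j k m l,
      ht.s3 j k l m] at this
    push_cast at this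
    linear_combination this
  have e2 : ∀ j k l m, yy j * U k l m - yy k * U j l m + yy l * U j k m - yy m * U j k l = 0 :=
    fun j k l m => by
    have : ∑ i, pderiv (0, i) (W4 yy T i j k l m) = 0 := by simp [hy]
    have ef := hf j k l m
    rw [dd_apply] at ef
    simp only [W4, map_add, map_sub, Derivation.leibniz, smul_eq_mul, dx_yy, Finset.sum_add_distrib,
      Finset.sum_sub_distrib, ← Finset.mul_sum, ← hU, mul_zero, add_zero] at this
    simp only [yy] at this ⊢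
    rw [ef] at this
    linear_combination -this
  obtain ⟨Z, hZ⟩ : ∃ Z : Fin 6 → Fin 6 → PP,
    ∀ l m, Z l m = ∑ i, pderiv (1, i) (U i l m) := ⟨_, fun _ _ => rfl⟩
  have e3 : ∀ k l m, 5 * U k l m = yy k * Z l m - yy l * Z k m + yy m * Z k l := fun k l m => by
    have : ∑ j, pderiv (1, j) (yy j * U k l m - yy k * U j l m + yy l * U j k m -
      yy m * U j k l) = 0 := by simp [e2]
    have ey := (hUb k l m).ey
    simp only [map_add, map_sub, Derivation.leibniz, smul_eq_mul, dy_yy, Finset.sum_add_distrib,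
      Finset.sum_sub_distrib, ← Finset.mul_sum, ← hZ, if_true, mul_ite, mul_one, mul_zero,
      Finset.sum_ite_eq, Finset.mem_univ, Finset.sum_const, Finset.card_univ, Fintype.card_fin,
      nsmul_eq_mul] at this
    simp only [yy] at this ⊢
    rw [ey, U1 k l m, U1 k m l, U2 k l m] at this
    push_cast at this
    linear_combination this
  refine ⟨Z, fun l m => ?_, fun l m => ?_, fun i j k l => ?_⟩
  · rw [hZ]
    exact BH.sum _ _ fun i _ => ((hUb i l m).dy i).cast rfl (by ring)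
  · simp only [hZ, U2 _ l m, map_neg, Finset.sum_neg_distrib]
  · simp only [P2, plk]
    linear_combination 5 * e1 i j k l + xx i * e3 j k l - xx j * e3 i k l + xx k * e3 i j l -
      xx l * e3 i j k

end Crest.Agent.X262.Rig38
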