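import Crest.Agent.X262.Rig38.Kill

/-!
# Row 262, G4, RIG (helper38): the generic frame

* `rho a : ℂ[x, y] → K[g]`, `x ↦ g₀₀ p + g₀₁ q`, `y ↦ g₁₀ p + g₁₁ q`;
* `rho_eq_zero` : its kernel is `II`;
* `ext_range` : the extension lemma; `lift_sec` : sections of `O(k)` are bihomogeneous polynomials.
-/

set_option autoImplicit false
set_option linter.unusedSectionVars false

open MvPolynomial

noncomputable section

namespace Crest.Agent.X262.Rig38

section gen

variable {A : Type} [CommRing A] [Algebra ℂ A]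

/-- the generic frame over the point `a` -/
def rho (a : Fin 8 → A) : PP →ₐ[ℂ] BP (Fin 2) A :=
  aeval fun m => X (m.1, 0) * C (pv a m.2) + X (m.1, 1) * C (qv a m.2)

/-- the determinant -/
def dt (A : Type) [CommRing A] : BP (Fin 2) A := X (0, 0) * X (1, 1) - X (0, 1) * X (1, 0)

theorem rho_X (a : Fin 8 → A) (k : Fin 2) (i : Fin 6) :
    rho a (X (k, i)) = X (k, 0) * C (pv a i) + X (k, 1) * C (qv a i) := aeval_X _ _

theorem rho_xx (a : Fin 8 → A) (i : Fin 6) :
    rho a (xx i) = X (0, 0) * C (pv a i) + X (0, 1) * C (qv a i) := aeval_X _ _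

theorem rho_yy (a : Fin 8 → A) (i : Fin 6) :
    rho a (yy i) = X (1, 0) * C (pv a i) + X (1, 1) * C (qv a i) := aeval_X _ _

theorem rho_plk (a : Fin 8 → A) (i j : Fin 6) :
    rho a (plk xx yy i j) = dt A * C (plk (pv a) (qv a) i j) := by
  simp only [plk, map_sub, map_mul, rho_xx, rho_yy, dt]
  ring

theorem rho_plk01 (a : Fin 8 → A) : rho a (plk xx yy 0 1) = dt A := by
  rw [rho_plk, plk01, map_one, mul_one]

theorem bh_dt : BH (dt A) 1 1 :=
  (((bh_x 0).mul (bh_y 1)).sub ((bh_x 1).mul (bh_y 0))).cast (by ring) (by ring)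

theorem e_dt : dd (Fin 2) A 0 1 (dt A) = 0 := by
  simp [dt, Derivation.leibniz, dd_X]
  ring

theorem OnL.map_C {c : T3 ℂ} {u v : Fin 6 → A} (o : OnL c u v) :
    OnL c (fun l => (C (u l) : BP (Fin 2) A)) (fun l => C (v l)) := by
  have hC : ∀ u v w : Fin 6 → A, (C (tri c u v w) : BP (Fin 2) A) =
      tri c (fun l => C (u l)) (fun l => C (v l)) (fun l => C (w l)) := fun u v w =>
    tri_map C _ _ (fun _ _ _ => rfl) u v w
  exact ⟨by rw [← hC, o.h0, map_zero], by rw [← hC, o.h1, map_zero], by rw [← hC, o.h2, map_zero],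
    by rw [← hC, o.h3, map_zero]⟩

theorem rho_II {c : T3 ℂ} (hs : Sy c) {a : Fin 8 → A} (o : OnL c (pv a) (qv a)) {r : PP}
    (hr : r ∈ II c) : rho a r = 0 := by
  refine (Ideal.span_le (I := RingHom.ker (rho a))).2 ?_ hr
  intro s h
  simp only [Set.mem_insert_iff, Set.mem_singleton_iff] at h
  rcases h with rfl | rfl | rfl | rfl <;>
  · change rho a _ = 0
    simp only [tri_alg, rho_xx, rho_yy]
    exact o.map_C.tri_eq hs ..

theorem rho_bh (a : Fin 8 → A) {p : PP} {s t : ℤ} (h : BH p s t) : BH (rho a p) s t := by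
  refine IsWeightedHomogeneous.induction_on (motive := fun p _ => BH (rho a p) s t) ?_ ?_ ?_ h
  · rw [map_zero]
    exact bh_zero _ _
  · intro p q _ _ hp hq
    rw [map_add]
    exact hp.add hq
  · intro m r hm
    rw [rho, aeval_monomial, BH, ← hm, Finsupp.weight_apply]
    refine IsWeightedHomogeneous.C_mul (IsWeightedHomogeneous.prod _ _ _ fun ⟨k, i⟩ _ =>
      IsWeightedHomogeneous.pow ?_ _) _
    have : ∀ (l : Fin 2) (b : A), IsWeightedHomogeneous (wt (Fin 2)) (X (k, l) * C b : BP (Fin 2) A)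
        (wt (Fin 6) (k, i)) := fun l b => by
      rw [mul_comm]
      exact (isWeightedHomogeneous_X _ _ _).C_mul _
    exact (this _ _).add (this _ _)

theorem rho_cp (a : Fin 8 → A) (s t : ℤ) (p : PP) : cp s t (rho a p) = rho a (cp s t p) := by
  have := cp_map (rho a).toRingHom.toAddMonoidHom 0 0
    (fun p s t hp => (rho_bh a hp).cast (by ring) (by ring)) s t p
  simpa using this

theorem rho_e (a : Fin 8 → A) (p : PP) : rho a (eD p) = dd (Fin 2) A 0 1 (rho a p) := by
  induction p using MvPolynomial.induction_on with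
  | C r =>
    rw [derivation_C, map_zero, algHom_C]
    exact (derivation_C _ _).symm
  | add p q hp hq => simp only [map_add, hp, hq]
  | mul_X p m hp =>
    obtain ⟨k, j⟩ := m
    simp only [Derivation.leibniz, smul_eq_mul, map_add, map_mul, hp, dd_X, rho_X, derivation_C]
    fin_cases k <;> simp [rho_X]
    ring

theorem pv_of {u : Fin 6 → A} (h0 : u 0 = 1) (h1 : u 1 = 0) (v : Fin 6 → A) :
    pv ![u 2, u 3, u 4, u 5, v 2, v 3, v 4, v 5] = u := by
  funext l
  fin_cases l <;> simp [pv, h0, h1]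

theorem qv_of {v : Fin 6 → A} (h0 : v 0 = 0) (h1 : v 1 = 1) (u : Fin 6 → A) :
    qv ![u 2, u 3, u 4, u 5, v 2, v 3, v 4, v 5] = v := by
  funext l
  fin_cases l <;> simp [qv, h0, h1]

end gen

variable {G : MvPolynomial (Fin 6) ℂ} {K : Type} [Field K] [Algebra ℂ K] {a : Fin 8 → K}

theorem GenPt.onL (hG : G.IsHomogeneous 3) (g : GenPt G a) : OnL (ten G) (pv a) (qv a) :=
  (onL_iff hG a).2 fun r hr => (g r).2 hr

theorem nz_pow {c : T3 ℂ} (R : RSq c) (N : ℕ) (r : PP) (h : plk xx yy 0 1 ^ N * r ∈ II c) :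
    r ∈ II c := by
  induction N with
  | zero => simpa using h
  | succ N ih => exact ih (R.nz _ (by rwa [← mul_assoc, ← pow_succ']))

/-- a frame over any ring in which `p₀₁` is a unit is a specialisation of the generic frame -/
theorem spec_zero (hG : G.IsHomogeneous 3) (g : GenPt G a) {A : Type} [CommRing A] [Algebra ℂ A]
    (ψ : PP →ₐ[ℂ] A) (hψ : ∀ r ∈ II (ten G), ψ r = 0) (d : A) (hd : d * ψ (plk xx yy 0 1) = 1)
    {r : PP} (h : rho a r = 0) : ψ r = 0 := by
  have o : OnL (ten G) (fun l => ψ (xx l)) (fun l => ψ (yy l)) := by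
    refine ⟨?_, ?_, ?_, ?_⟩ <;> rw [← tri_alg] <;> exact hψ _ (Ideal.subset_span (by simp))
  simp only [plk, map_sub, map_mul] at hd
  obtain ⟨p, hp⟩ : ∃ p : Fin 6 → A, p = fun l =>
    (d * ψ (yy 1)) * ψ (xx l) + (-d * ψ (xx 1)) * ψ (yy l) := ⟨_, rfl⟩
  obtain ⟨q, hq⟩ : ∃ q : Fin 6 → A, q = fun l =>
    (-d * ψ (yy 0)) * ψ (xx l) + (d * ψ (xx 0)) * ψ (yy l) := ⟨_, rfl⟩
  have o' : OnL (ten G) p q := by
    rw [hp, hq]
    exact o.comb (ten_sy G) ..
  obtain ⟨a', ha'⟩ : ∃ a' : Fin 8 → A, a' = ![p 2, p 3, p 4, p 5, q 2, q 3, q 4, q 5] := ⟨_, rfl⟩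
  have e1 : pv a' = p := ha' ▸ pv_of (by rw [hp]; linear_combination hd) (by rw [hp]; ring) q
  have e2 : qv a' = q := ha' ▸ qv_of (by rw [hq]; ring) (by rw [hq]; linear_combination hd) p
  rw [← e1, ← e2, onL_iff hG] at o'
  let σ : BP (Fin 2) (MvPolynomial (Fin 8) ℂ) →+* A :=
    eval₂Hom (aeval a' : MvPolynomial (Fin 8) ℂ →ₐ[ℂ] A).toRingHom
      fun m => ψ (X (m.1, if m.2 = 0 then 0 else 1))
  have h1 : ∀ r, σ (rho X r) = ψ r := fun r => by
    induction r using MvPolynomial.induction_on with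
    | C z =>
      rw [algHom_C, algHom_C]
      exact (eval₂Hom_C _ _ _).trans ((aeval a').commutes z)
    | add p q hp hq => simp only [map_add, hp, hq]
    | mul_X s m hs =>
      obtain ⟨k, j⟩ := m
      rw [map_mul, map_mul, map_mul, hs, rho_X]
      congr 1
      simp only [σ, map_add, map_mul, eval₂Hom_X', eval₂Hom_C, pv_map, qv_map]
      simp only [AlgHom.toRingHom_eq_coe, RingHom.coe_coe, aeval_X, e1, e2]
      rw [hp, hq]
      fin_cases k
      · simp only [xx, yy] at hd ⊢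
        simp
        linear_combination ψ (X (0, j)) * hd
      · simp only [xx, yy] at hd ⊢
        simp
        linear_combination ψ (X (1, j)) * hd
  have h2 : ∀ r, map (aeval a : MvPolynomial (Fin 8) ℂ →ₐ[ℂ] K).toRingHom (rho X r) = rho a r :=
    fun r => by
    induction r using MvPolynomial.induction_on with
    | C z =>
      rw [algHom_C, algHom_C]
      exact (map_C _ _).trans (congrArg C ((aeval a).commutes z))
    | add p q hp hq => simp only [map_add, hp, hq]
    | mul_X s m hs =>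
      obtain ⟨k, j⟩ := m
      rw [map_mul, map_mul, map_mul, hs, rho_X, rho_X]
      simp only [map_add, map_mul, map_X, map_C, pv_map, qv_map]
      simp only [AlgHom.toRingHom_eq_coe, RingHom.coe_coe, aeval_X]
  rw [← h1, (rho X r).as_sum, map_sum]
  refine Finset.sum_eq_zero fun m _ => ?_
  have h3 : aeval a (coeff m (rho (X : Fin 8 → MvPolynomial (Fin 8) ℂ) r)) = 0 := by
    have := congrArg (coeff m) ((h2 r).trans h)
    rwa [coeff_map] at this
  simp only [σ, eval₂Hom_monomial]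
  rw [show (aeval a' : MvPolynomial (Fin 8) ℂ →ₐ[ℂ] A).toRingHom (coeff m (rho X r)) = 0 from
    o' _ ((g _).1 h3), zero_mul]

theorem rho_eq_zero (hG : G.IsHomogeneous 3) (R : RSq (ten G)) (g : GenPt G a) {r : PP} :
    rho a r = 0 ↔ r ∈ II (ten G) := by
  refine ⟨fun h => ?_, rho_II (ten_sy G) (g.onL hG)⟩
  let D := Ideal.Quotient.mk (II (ten G)) (plk xx yy 0 1)
  have := spec_zero hG g ((IsScalarTower.toAlgHom ℂ _ (Localization.Away D)).comp
    (Ideal.Quotient.mkₐ ℂ (II (ten G)))) (fun r hr => by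
      simp [Ideal.Quotient.eq_zero_iff_mem.2 hr]) (IsLocalization.Away.invSelf D)
    (by rw [mul_comm]; exact IsLocalization.Away.mul_invSelf D) h
  obtain ⟨⟨_, N, rfl⟩, e⟩ := (IsLocalization.map_eq_zero_iff (Submonoid.powers D) _ _).1 this
  refine nz_pow R N r (Ideal.Quotient.eq_zero_iff_mem.1 ?_)
  rw [map_mul, map_pow]
  exact e

theorem dt_ne : dt K ≠ 0 := fun h => by
  have := congrArg (eval fun m : Fin 2 × Fin 2 => if m.1 = m.2 then (1 : K) else 0) h
  simp [dt] at this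

theorem ext_range (hG : G.IsHomogeneous 3) (R : RSq (ten G)) (g : GenPt G a) {h : BP (Fin 2) K}
    (H : ∀ i j, ∃ (N : ℕ) (r : PP), rho a r = rho a (plk xx yy i j) ^ N * h) :
    ∃ r, rho a r = h := by
  choose N r hr using H
  obtain ⟨M, hM⟩ : ∃ M, ∀ i j, N i j ≤ M :=
    ⟨∑ i, ∑ j, N i j, fun i j => (Finset.single_le_sum (f := N i) (fun _ _ => Nat.zero_le _)
      (Finset.mem_univ j)).trans (Finset.single_le_sum (f := fun i => ∑ j, N i j)
        (fun _ _ => Nat.zero_le _) (Finset.mem_univ i))⟩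
  have H' : ∀ i j, ∃ r : PP, rho a r = rho a (plk xx yy i j) ^ M * h := fun i j =>
    ⟨plk xx yy i j ^ (M - N i j) * r i j, by
      rw [map_mul, map_pow, hr, ← mul_assoc, ← pow_add, Nat.sub_add_cancel (hM i j)]⟩
  choose r' hr' using H'
  have key : ∀ n : ℕ, (∃ s, rho a s = dt K ^ n * h) → ∃ s, rho a s = h := fun n => by
    induction n with
    | zero => simp
    | succ n ih =>
      rintro ⟨s, hs⟩
      have h1 : s ∈ II (ten G) ⊔ Ideal.span {plk xx yy 0 1} := R.s2 s M fun i j => by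
        refine Submodule.mem_sup.2 ⟨plk xx yy i j ^ M * s - plk xx yy 0 1 ^ (n + 1) * r' i j,
          (rho_eq_zero hG R g).1 ?_, plk xx yy 0 1 ^ (n + 1) * r' i j,
          Ideal.mem_span_singleton'.2 ⟨plk xx yy 0 1 ^ n * r' i j, by ring⟩, by ring⟩
        rw [map_sub, map_mul, map_mul, map_pow, map_pow, hs, hr', rho_plk01]
        ring
      obtain ⟨y, hy, z, hz, e⟩ := Submodule.mem_sup.1 h1
      obtain ⟨w, rfl⟩ := Ideal.mem_span_singleton'.1 hz
      refine ih ⟨w, mul_right_cancel₀ dt_ne ?_⟩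
      rw [← e, map_add, (rho_eq_zero hG R g).2 hy, zero_add, map_mul, rho_plk01] at hs
      rw [hs]
      ring
  exact key M ⟨r' 0 1, by rw [hr', rho_plk01]⟩

theorem ext_bh (hG : G.IsHomogeneous 3) (R : RSq (ten G)) (g : GenPt G a) {h : BP (Fin 2) K}
    {s t : ℤ} (hb : BH h s t)
    (H : ∀ i j, ∃ (N : ℕ) (r : PP), rho a r = rho a (plk xx yy i j) ^ N * h) :
    ∃ r, BH r s t ∧ rho a r = h := by
  obtain ⟨r, hr⟩ := ext_range hG R g H
  exact ⟨cp s t r, bh_cp _ _ _, by rw [← rho_cp, hr, hb.cp_eq]⟩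

theorem aeval_hom_mul {σ A : Type} [CommRing A] [Algebra ℂ A] {P : MvPolynomial σ ℂ} {n : ℕ}
    (h : P.IsHomogeneous n) (d : A) (f : σ → A) :
    aeval (fun m => d * f m) P = d ^ n * aeval f P := by
  refine IsWeightedHomogeneous.induction_on (motive := fun P _ =>
    aeval (fun m => d * f m) P = d ^ n * aeval f P) ?_ ?_ ?_ h
  · simp
  · intro p q _ _ hp hq
    rw [map_add, map_add, hp, hq, mul_add]
  · intro m r hm
    rw [aeval_monomial, aeval_monomial, ← hm, Finsupp.weight_apply]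
    simp only [Finsupp.prod, Finsupp.sum, mul_pow, Finset.prod_mul_distrib, Pi.one_apply,
      smul_eq_mul, mul_one, Finset.prod_pow_eq_pow_sum]
    ring

theorem lift_sec (hG : G.IsHomogeneous 3) (R : RSq (ten G)) (g : GenPt G a) {k : ℕ} {s : K}
    (hs : s ∈ Sec (plk (pv a) (qv a)) k) : ∃ r, BH r k k ∧ rho a r = dt K ^ k * C s := by
  refine ext_bh hG R g (((bh_dt.pow k).mul (bh_C s)).cast (by ring) (by ring)) fun i j => ?_
  obtain ⟨N, P, hP, e⟩ := hs i j
  refine ⟨N, aeval (fun m : Fin 6 × Fin 6 => plk xx yy m.1 m.2) P, ?_⟩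
  have e' : (C (aeval (fun m : Fin 6 × Fin 6 => plk (pv a) (qv a) m.1 m.2) P) : BP (Fin 2) K) =
      aeval (fun m : Fin 6 × Fin 6 => C (plk (pv a) (qv a) m.1 m.2)) P :=
    comp_aeval_apply _ (IsScalarTower.toAlgHom ℂ K (BP (Fin 2) K)) P
  rw [comp_aeval_apply]
  simp only [rho_plk]
  rw [aeval_hom_mul hP, ← e', ← e, map_mul, map_pow]
  ring

end Crest.Agent.X262.Rig38
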